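import Vale.Agent.N031X.Prim

/-!
# P031: the counting functions as weighted sums
-/

namespace Vale.Agent.N031X

open Finset Filter Topology Vale.Agent.PNT Vale.Agent.P031.H577

/-- the preimages of `d` in `A` whose product with `b` is `a` -/
def Pre (A : Set ℕ) {q : ℕ} (a b : ZMod q) (d : ℕ) : Set ℕ :=
  {m : ℕ | m ∈ A ∧ 1 ≤ m ∧ Nat.totient m = d ∧ b * (m : ZMod q) = a}

theorem Pre_fin (A : Set ℕ) {q : ℕ} (a b : ZMod q) (d : ℕ) : (Pre A a b d).Finite :=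
  (fin_pre d).subset fun _ hm => hm.2.2.1

theorem Pre_le (A : Set ℕ) {q : ℕ} (a b : ZMod q) (d : ℕ) : ∀ m ∈ Pre A a b d, m ≤ 2 * d ^ 2 := by
  intro m hm
  have h := le_two_sq m
  rwa [hm.2.2.1] at h

open Classical in
/-- the weight of `d` -/
noncomputable def wt (A : Set ℕ) {q : ℕ} [NeZero q] (a : ZMod q) (k : ℕ) (t : ℝ) (d : ℕ) : ℝ :=
  ∑ b ∈ (univ : Finset (ZMod q)).filter IsUnit,
    if k ≤ (Pre A a b d).ncard then
      (q.totient : ℝ)⁻¹ / max (d : ℝ) (t * kth (Pre A a b d) k) else 0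

open Classical in
theorem card_units (q : ℕ) [NeZero q] :
    ((univ : Finset (ZMod q)).filter IsUnit).card = q.totient := by
  rw [← ZMod.card_units_eq_totient q]
  symm
  refine Finset.card_bij (fun u _ => (u : ZMod q)) (fun u _ => by simp) ?_ ?_
  · intro u _ v _ h
    exact Units.ext h
  · intro b hb
    obtain ⟨u, hu⟩ := (mem_filter.1 hb).2
    exact ⟨u, mem_univ _, hu⟩

theorem wt_nonneg (A : Set ℕ) {q : ℕ} [NeZero q] (a : ZMod q) (k : ℕ) (t : ℝ) (d : ℕ) :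
    0 ≤ wt A a k t d := by
  unfold wt
  refine sum_nonneg fun b _ => ?_
  split_ifs
  · exact div_nonneg (by positivity) ((Nat.cast_nonneg d).trans (le_max_left _ _))
  · exact le_rfl

theorem wt_le (A : Set ℕ) {q : ℕ} [NeZero q] (a : ZMod q) (k : ℕ) (t : ℝ) {d : ℕ} (hd : 1 ≤ d) :
    wt A a k t d ≤ 1 / (d : ℝ) := by
  classical
  have hd0 : (0 : ℝ) < d := by exact_mod_cast hd
  have hq : (0 : ℝ) < q.totient := by exact_mod_cast Nat.totient_pos.2 (NeZero.pos q)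
  unfold wt
  refine (sum_le_card_nsmul _ _ ((q.totient : ℝ)⁻¹ / d) fun b _ => ?_).trans (le_of_eq ?_)
  · split_ifs
    · exact div_le_div_of_nonneg_left (by positivity) hd0 (le_max_left _ _)
    · positivity
  · rw [card_units, nsmul_eq_mul]
    field_simp

theorem V_eq' (x : ℝ) : (V x : ℝ) = Vale.Agent.P031.H577.V x := rfl

theorem N_eq (S : Set ℕ) {k : ℕ} (hk : 1 ≤ k) (t x : ℝ) : (N S k t x : ℝ) =
    W (fun v => k ≤ Set.ncard {n : ℕ | n ∈ S ∧ 1 ≤ n ∧ t * (n : ℝ) ≤ x ∧ Nat.totient n = v}) x := by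
  unfold N W
  congr 2
  ext v
  constructor
  · rintro ⟨h1, h2⟩
    obtain ⟨n, hn⟩ := Set.nonempty_of_ncard_ne_zero (s := {n : ℕ | n ∈ S ∧ 1 ≤ n ∧
      t * (n : ℝ) ≤ x ∧ Nat.totient n = v}) (by omega)
    exact ⟨⟨n, hn.2.1, hn.2.2.2⟩, h1, h2⟩
  · rintro ⟨-, h1, h2⟩
    exact ⟨h1, h2⟩

theorem N_le_V (S : Set ℕ) {k : ℕ} (hk : 1 ≤ k) (t x : ℝ) : (N S k t x : ℝ) ≤ V x := by
  rw [N_eq S hk, V_eq']
  exact W_le_V _ x

/-- the preimages of a good pair -/
theorem pair_iff {A : Set ℕ} {P q a k p d : ℕ} (hA : Stable P A) (hk : 1 ≤ k) {t x : ℝ}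
    (ht : 0 ≤ t) (hP : P ≤ p) (hlt : d + 1 < p) (htop : Top ((p - 1) * d) p) :
    k ≤ Set.ncard {n : ℕ | n ∈ {n : ℕ | n ∈ A ∧ n ≡ a [MOD q]} ∧ 1 ≤ n ∧ t * (n : ℝ) ≤ x ∧
      Nat.totient n = (p - 1) * d} ↔
    k ≤ (Pre A (a : ZMod q) (p : ZMod q) d).ncard ∧
      t * kth (Pre A (a : ZMod q) (p : ZMod q) d) k * (p : ℝ) ≤ x := by
  have hp := htop.1
  have h1 : {n : ℕ | n ∈ {n : ℕ | n ∈ A ∧ n ≡ a [MOD q]} ∧ 1 ≤ n ∧ t * (n : ℝ) ≤ x ∧
      Nat.totient n = (p - 1) * d} =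
      (fun m => p * m) '' {m ∈ Pre A (a : ZMod q) (p : ZMod q) d | t * p * (m : ℝ) ≤ x} := by
    ext n
    constructor
    · rintro ⟨⟨h1, h2⟩, h3, h4, h5⟩
      obtain ⟨m, hm1, hmD, rfl⟩ := (desc hlt htop n h3).1 h5
      refine ⟨m, ⟨⟨(hA p hp hP m hm1 (not_dvd_of hp hlt hm1 hmD)).1 h1, hm1, hmD, ?_⟩, ?_⟩, rfl⟩
      · rw [← Nat.cast_mul, ZMod.natCast_eq_natCast_iff]
        exact h2
      · rw [Nat.cast_mul] at h4
        linarith only [h4]
    · rintro ⟨m, ⟨⟨h1, hm1, hmD, h2⟩, h3⟩, rfl⟩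
      have h4 : 1 ≤ p * m := Nat.mul_pos hp.pos hm1
      refine ⟨⟨(hA p hp hP m hm1 (not_dvd_of hp hlt hm1 hmD)).2 h1, ?_⟩, h4, ?_,
        (desc hlt htop _ h4).2 ⟨m, hm1, hmD, rfl⟩⟩
      · rw [← Nat.cast_mul, ZMod.natCast_eq_natCast_iff] at h2
        exact h2
      · show t * ((p * m : ℕ) : ℝ) ≤ x
        rw [Nat.cast_mul]
        linarith only [h3]
  rw [h1, Set.ncard_image_of_injective _ (fun a b h => Nat.eq_of_mul_eq_mul_left hp.pos h),
    kth_iff (Pre_fin _ _ _ _) hk (by positivity), mul_right_comm]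

theorem app (q : ℕ) [NeZero q] (P : ℕ) (ε : ℝ) (hε : 0 < ε) : ∃ η : ℝ, 0 < η ∧
    ∀ᶠ x : ℝ in atTop, ∀ F : Finset ℕ, (∀ d ∈ F, 1 ≤ d ∧ Real.log d ≤ η * Real.log x) →
    Data ε x F → ∀ (A : Set ℕ) (a k : ℕ) (t : ℝ), Stable P A → 1 ≤ k → 0 ≤ t → t ≤ 1 →
    |(N {n : ℕ | n ∈ A ∧ n ≡ a [MOD q]} k t x : ℝ) -
      x / Real.log x * ∑ d ∈ F, wt A (a : ZMod q) k t d| ≤
      2 * ε * V x + ε * (x / Real.log x * ∑ d ∈ F, 1 / (d : ℝ)) := by
  classical
  have hq : (0 : ℝ) < q.totient := by exact_mod_cast Nat.totient_pos.2 (NeZero.pos q)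
  obtain ⟨η, hη, hPB⟩ := PB q (ε / q.totient) (by positivity)
  refine ⟨η / 3, by positivity, ?_⟩
  filter_upwards [hPB, eventually_ge_atTop ((P : ℝ) ^ 2), eventually_ge_atTop ((q : ℝ) ^ 2),
    eventually_ge_atTop (3 : ℝ),
    Real.tendsto_log_atTop.eventually_ge_atTop (3 / η)] with x hPB hxP hxq hx3 hxl F hF hD A a k t
    hA hk ht0 ht1
  have hx0 : 0 < x := by linarith only [hx3]
  have hL : 0 < Real.log x := Real.log_pos (by linarith only [hx3])
  have hX : 0 < x / Real.log x := by positivity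
  have tr := transfer hx0.le hD
    (fun v => k ≤ Set.ncard {n : ℕ | n ∈ {n : ℕ | n ∈ A ∧ n ≡ a [MOD q]} ∧ 1 ≤ n ∧
      t * (n : ℝ) ≤ x ∧ Nat.totient n = v})
    (fun c => IsUnit (c.1 : ZMod q) ∧ k ≤ (Pre A (a : ZMod q) (c.1 : ZMod q) c.2).ncard ∧
      t * kth (Pre A (a : ZMod q) (c.1 : ZMod q) c.2) k * (c.1 : ℝ) ≤ x) (by
      intro c _ hg
      have h1 : P ≤ c.1 := by
        have := (Real.le_sqrt_of_sq_le hxP).trans hg.sq.le
        exact_mod_cast this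
      have h2 : q < c.1 := by
        have := (Real.le_sqrt_of_sq_le hxq).trans_lt hg.sq
        exact_mod_cast this
      have h3 : IsUnit (c.1 : ZMod q) := by
        rw [ZMod.isUnit_iff_coprime, Nat.Prime.coprime_iff_not_dvd hg.top.1]
        exact fun h => absurd (Nat.le_of_dvd (NeZero.pos q) h) (by omega)
      rw [pair_iff hA hk ht0 h1 hg.lt hg.top]
      simp only [h3, true_and])
  rw [← N_eq _ hk, ← V_eq', cntP_eq, card_Prs_filter] at tr
  have key : ∀ d ∈ F, |((((Prm x d).filter (fun p : ℕ => IsUnit (p : ZMod q) ∧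
      k ≤ (Pre A (a : ZMod q) (p : ZMod q) d).ncard ∧
      t * kth (Pre A (a : ZMod q) (p : ZMod q) d) k * (p : ℝ) ≤ x)).card : ℕ) : ℝ) -
      x / Real.log x * wt A (a : ZMod q) k t d| ≤ ε * (x / Real.log x * (1 / (d : ℝ))) := by
    intro d hd
    obtain ⟨hd1, hdl⟩ := hF d hd
    have hd1' : (1 : ℝ) ≤ d := by exact_mod_cast hd1
    rw [Finset.card_eq_sum_card_fiberwise (f := fun p : ℕ => (p : ZMod q))
      (t := (univ : Finset (ZMod q)).filter IsUnit) (by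
        intro p hp
        exact mem_filter.2 ⟨mem_univ _, (mem_filter.1 hp).2.1⟩)]
    unfold wt
    rw [Nat.cast_sum, mul_sum, ← sum_sub_distrib]
    refine (abs_sum_le_sum_abs _ _).trans ((sum_le_card_nsmul _ _
      (ε / q.totient * (x / Real.log x * (1 / (d : ℝ)))) fun b hb => ?_).trans (le_of_eq ?_))
    swap
    · rw [card_units, nsmul_eq_mul]
      field_simp
    have hbu : IsUnit b := (mem_filter.1 hb).2
    by_cases hh : k ≤ (Pre A (a : ZMod q) b d).ncard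
    · rw [if_pos hh]
      have e1 : ((Prm x d).filter (fun p : ℕ => IsUnit (p : ZMod q) ∧
          k ≤ (Pre A (a : ZMod q) (p : ZMod q) d).ncard ∧
          t * kth (Pre A (a : ZMod q) (p : ZMod q) d) k * (p : ℝ) ≤ x)).filter
          (fun p : ℕ => (p : ZMod q) = b) = (Prm x d).filter (fun p : ℕ => (p : ZMod q) = b ∧
            t * kth (Pre A (a : ZMod q) b d) k * (p : ℝ) ≤ x) := by
        ext p
        simp only [mem_filter]
        constructor
        · rintro ⟨⟨h1, -, -, h2⟩, h3⟩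
          rw [h3] at h2
          exact ⟨h1, h3, h2⟩
        · rintro ⟨h1, h3, h2⟩
          rw [h3]
          exact ⟨⟨h1, hbu, hh, h2⟩, rfl⟩
      obtain ⟨s1, s2⟩ := sand b (u := t * kth (Pre A (a : ZMod q) b d) k) hx0.le hd1
      have hμ : (kth (Pre A (a : ZMod q) b d) k : ℝ) ≤ 2 * (d : ℝ) ^ 2 := by
        exact_mod_cast kth_le (Pre_le A _ b d) hh
      have hg1 : (d : ℝ) ≤ max (d : ℝ) (t * kth (Pre A (a : ZMod q) b d) k) := le_max_left _ _
      have hg2 : max (d : ℝ) (t * kth (Pre A (a : ZMod q) b d) k) ≤ 2 * (d : ℝ) ^ 2 := by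
        refine max_le (by nlinarith only [hd1']) ?_
        have h0 : (0 : ℝ) ≤ kth (Pre A (a : ZMod q) b d) k := Nat.cast_nonneg _
        nlinarith only [h0, hμ, ht1]
      generalize max (d : ℝ) (t * kth (Pre A (a : ZMod q) b d) k) = g at s1 s2 hg1 hg2 ⊢
      have hlg : Real.log g ≤ η * Real.log x := by
        have h1 := Real.log_le_log (by linarith only [hg1, hd1']) hg2
        rw [Real.log_mul (by norm_num) (by positivity), Real.log_pow] at h1
        have h2 := Real.log_two_lt_d9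
        rw [div_le_iff₀ hη] at hxl
        push_cast at h1
        linarith only [h1, h2, hxl, hdl]
      rw [e1]
      refine (hPB b hbu g _ (hd1'.trans hg1) hlg (by convert s1) (by convert s2)).trans ?_
      have h3 : 1 / g ≤ 1 / (d : ℝ) := one_div_le_one_div_of_le (by linarith only [hd1']) hg1
      gcongr
    · rw [if_neg hh, filter_false_of_mem]
      · simp only [card_empty, Nat.cast_zero, mul_zero, sub_zero, abs_zero]
        positivity
      · intro p hp h3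
        rw [← h3] at hh
        exact hh (mem_filter.1 hp).2.2.1
  have key2 := (abs_sum_le_sum_abs _ F).trans (sum_le_sum key)
  rw [sum_sub_distrib, ← mul_sum, ← mul_sum, ← mul_sum, ← Nat.cast_sum] at key2
  obtain ⟨a1, a2⟩ := abs_le.1 tr
  obtain ⟨b1, b2⟩ := abs_le.1 key2
  rw [abs_le]
  constructor
  · linarith only [a1, b1]
  · linarith only [a2, b2]

theorem mass (ε : ℝ) (hε : 0 < ε) : ∃ η : ℝ, 0 < η ∧
    ∀ᶠ x : ℝ in atTop, ∀ F : Finset ℕ, (∀ d ∈ F, 1 ≤ d ∧ Real.log d ≤ η * Real.log x) →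
    Data ε x F → |(V x : ℝ) - x / Real.log x * ∑ d ∈ F, 1 / (d : ℝ)| ≤
      ε * V x + ε * (x / Real.log x * ∑ d ∈ F, 1 / (d : ℝ)) := by
  classical
  obtain ⟨η, hη, hPB⟩ := PB 1 ε hε
  refine ⟨η, hη, ?_⟩
  filter_upwards [hPB, eventually_ge_atTop (3 : ℝ)] with x hPB hx3 F hF hD
  have hx0 : 0 < x := by linarith only [hx3]
  have h1 := hD.1
  have h2 := card_Prs_filter F x (fun _ => True)
  rw [filter_true] at h2
  rw [← V_eq', h2] at h1
  have key : ∀ d ∈ F, |((((Prm x d).filter (fun _ => True)).card : ℕ) : ℝ) -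
      x / Real.log x * (1 / (d : ℝ))| ≤ ε * (x / Real.log x * (1 / (d : ℝ))) := by
    intro d hd
    obtain ⟨hd1, hdl⟩ := hF d hd
    have hd1' : (1 : ℝ) ≤ d := by exact_mod_cast hd1
    obtain ⟨s1, s2⟩ := sand (0 : ZMod 1) (u := 0) hx0.le hd1
    rw [max_eq_left (by positivity)] at s1 s2
    have e1 : ∀ p : ℕ, ((p : ZMod 1) = 0 ∧ (0 : ℝ) * (p : ℝ) ≤ x) ↔ True := fun p =>
      iff_true_intro ⟨Subsingleton.elim _ _, by rw [zero_mul]; exact hx0.le⟩
    simp only [e1] at s1 s2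
    have h3 := hPB 0 (isUnit_of_subsingleton _) d _ hd1' hdl s1 s2
    rw [Nat.totient_one, Nat.cast_one, inv_one] at h3
    convert h3
  have key2 := (abs_sum_le_sum_abs _ F).trans (sum_le_sum key)
  rw [sum_sub_distrib, ← mul_sum, ← mul_sum, ← mul_sum, ← Nat.cast_sum] at key2
  obtain ⟨a1, a2⟩ := abs_le.1 h1
  obtain ⟨b1, b2⟩ := abs_le.1 key2
  rw [abs_le]
  constructor
  · linarith only [a1, b1]
  · linarith only [a2, b2]

end Vale.Agent.N031X
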