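import Vale.Agent.N031X.Defs

/-! # P031: a positive proportion of the values comes from squarefree rough integers -/

namespace Vale.Agent.N031X

open Filter Topology

theorem cov_pow {p m : ℕ} (hp : p.Prime) (hm : p ∣ m) (e : ℕ) :
    Nat.totient (p ^ e * m) = p ^ e * Nat.totient m := by
  induction e with
  | zero => simp
  | succ e ih =>
    rw [pow_succ', mul_assoc, Nat.totient_mul_of_prime_of_dvd hp (hm.mul_left _), ih, mul_assoc]

/-- the multiples `m w ≤ x` of values `w` -/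
noncomputable def covD (x : ℝ) (m : ℕ) : Finset ℕ := (fin_V (x / m)).toFinset.image (m * ·)

theorem mem_covD {x : ℝ} {m n v : ℕ} (hm : 0 < m) (hn : 1 ≤ n) (hv : v = m * Nat.totient n)
    (hx : (v : ℝ) ≤ x) : v ∈ covD x m := by
  refine Finset.mem_image.2 ⟨Nat.totient n, ?_, hv.symm⟩
  rw [Set.Finite.mem_toFinset]
  refine ⟨⟨n, hn, rfl⟩, ?_⟩
  have h1 : (0 : ℝ) < m := by exact_mod_cast hm
  rw [le_div_iff₀ h1, mul_comm]
  rw [hv] at hx
  exact_mod_cast hx

theorem card_covD {C x s : ℝ} (hC : 0 < C)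
    (h : ∀ t : ℝ, 1 ≤ t → (V (x / t) : ℝ) ≤ C * t ^ (-(3 / 4 : ℝ)) * V x) {m : ℕ} (hs : 1 ≤ s)
    (hm : s ≤ m) : ((covD x m).card : ℝ) ≤ C * s ^ (-(3 / 4 : ℝ)) * V x := by
  have h1 : (covD x m).card ≤ V (x / m) := by
    rw [V, Set.ncard_eq_toFinset_card _ (fin_V _)]
    exact Finset.card_image_le
  have h2 : (m : ℝ) ^ (-(3 / 4 : ℝ)) ≤ s ^ (-(3 / 4 : ℝ)) :=
    Real.rpow_le_rpow_of_nonpos (by linarith) hm (by norm_num)
  calc ((covD x m).card : ℝ) ≤ V (x / m) := by exact_mod_cast h1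
    _ ≤ C * (m : ℝ) ^ (-(3 / 4 : ℝ)) * V x := h m (hs.trans hm)
    _ ≤ _ := by gcongr

theorem cov_split {K E n : ℕ} (hn : 1 ≤ n) (h1 : ∀ p, p.Prime → K < p → ¬ p ^ 2 ∣ n)
    (h2 : ∀ p, p.Prime → p ≤ K → ¬ p ^ (E + 1) ∣ n) :
    ∃ c b, 1 ≤ c ∧ c ≤ K.factorial ^ E ∧ 1 ≤ b ∧ Squarefree b ∧
      (∀ r : ℕ, r.Prime → r ∣ b → K < r) ∧ Nat.totient n = c * Nat.totient b := by
  set a := Nat.gcd n (K.factorial ^ E) with ha
  obtain ⟨b, hb⟩ : a ∣ n := Nat.gcd_dvd_left _ _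
  have hL : 0 < K.factorial ^ E := pow_pos K.factorial_pos E
  have ha0 : 0 < a := Nat.gcd_pos_of_pos_left _ hn
  have hb0 : 0 < b := Nat.pos_of_ne_zero fun h => by
    rw [h, mul_zero] at hb
    omega
  have h3 : ∀ r : ℕ, r.Prime → r ∣ b → K < r := by
    intro r hr hrb
    by_contra hK
    push Not at hK
    have h4 : r ^ n.factorization r ∣ n := Nat.ordProj_dvd n r
    have h5 : n.factorization r ≤ E := by
      by_contra h6
      push Not at h6
      exact h2 r hr hK ((pow_dvd_pow r h6).trans h4)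
    have h6 : r ^ n.factorization r ∣ a := Nat.dvd_gcd h4
      ((pow_dvd_pow r h5).trans (pow_dvd_pow_of_dvd ((hr.dvd_factorial).2 hK) E))
    refine Nat.pow_succ_factorization_not_dvd (by omega : n ≠ 0) hr ?_
    rw [pow_succ]
    exact (Nat.mul_dvd_mul h6 hrb).trans hb.symm.dvd
  have h4 : Nat.Coprime a b := by
    refine Nat.coprime_of_dvd fun r hr hra hrb => ?_
    have h5 := (hr.dvd_factorial).1 (hr.dvd_of_dvd_pow (hra.trans (Nat.gcd_dvd_right _ _)))
    have h6 := h3 r hr hrb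
    omega
  refine ⟨Nat.totient a, b, Nat.totient_pos.2 ha0,
    (Nat.totient_le a).trans (Nat.le_of_dvd hL (Nat.gcd_dvd_right _ _)), hb0, ?_, h3, ?_⟩
  · rw [Nat.squarefree_iff_prime_squarefree]
    intro r hr hrb
    refine h1 r hr (h3 r hr ((Dvd.intro _ rfl).trans hrb)) ?_
    rw [pow_two, hb]
    exact hrb.mul_left _
  · rw [← Nat.totient_mul h4, ← hb]

theorem cov_bi (s : Finset ℕ) (t : ℕ → Finset ℕ) (f : ℕ → ℝ)
    (h : ∀ j ∈ s, ((t j).card : ℝ) ≤ f j) : ((s.biUnion t).card : ℝ) ≤ ∑ j ∈ s, f j := by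
  have h1 : ((s.biUnion t).card : ℝ) ≤ ∑ j ∈ s, ((t j).card : ℝ) := by
    exact_mod_cast Finset.card_biUnion_le
  exact h1.trans (Finset.sum_le_sum h)

theorem cover (h : Potter) : Cover := by
  classical
  obtain ⟨C, hC, h⟩ := h
  intro P
  have hs : Summable fun j : ℕ => (j : ℝ) ^ (-(3 / 2 : ℝ)) := Real.summable_nat_rpow.2 (by norm_num)
  obtain ⟨s, hs⟩ := summable_iff_vanishing_norm.1 hs (1 / (8 * C)) (by positivity)
  obtain ⟨K0, hK0⟩ := s.bddAbove
  set K := K0 + P + 1 with hK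
  have hE : Tendsto (fun E : ℕ => ((2 : ℝ) ^ E) ^ (-(3 / 4 : ℝ))) atTop (𝓝 0) :=
    (tendsto_rpow_neg_atTop (by norm_num)).comp (tendsto_pow_atTop_atTop_of_one_lt (by norm_num))
  obtain ⟨E, hE⟩ := (hE.eventually (gt_mem_nhds (show (0 : ℝ) < 1 / (4 * C * (K + 1)) by
    positivity))).exists
  set L := K.factorial ^ E with hL
  have hL0 : (0 : ℝ) < L := by exact_mod_cast pow_pos K.factorial_pos E
  refine ⟨1 / (2 * L), by positivity, fun x hx => ?_⟩
  set R := (fin_le x fun v => ∃ b : ℕ, 1 ≤ b ∧ Squarefree b ∧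
      (∀ r : ℕ, r.Prime → r ∣ b → P ≤ r) ∧ Nat.totient b = v).toFinset with hR
  rw [Set.ncard_eq_toFinset_card _ (fin_le x _), ← hR]
  set M := ⌊x⌋₊ + 1 with hM
  set B1 := (Finset.Ico K M).biUnion fun j => covD x ((j + 1) * j) ∪ covD x ((j + 1) ^ 2) with hB1
  set B2 := (Finset.Icc 2 K).biUnion fun p => covD x (p ^ E) with hB2
  set G := (Finset.Icc 1 L).biUnion fun c => R.image (c * ·) with hG
  have hsub : (fin_V x).toFinset ⊆ B1 ∪ B2 ∪ G := by
    intro v hv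
    rw [Set.Finite.mem_toFinset] at hv
    obtain ⟨⟨n, hn, rfl⟩, hv⟩ := hv
    by_cases h1 : ∃ p, p.Prime ∧ K < p ∧ p ^ 2 ∣ n
    · obtain ⟨p, hp, hKp, m, hm⟩ := h1
      have hm0 : 1 ≤ m := Nat.pos_of_ne_zero fun h0 => by
        rw [h0, mul_zero] at hm
        omega
      obtain ⟨j, rfl⟩ : ∃ j, p = j + 1 := ⟨p - 1, by omega⟩
      have hj : j ≤ Nat.totient n := by
        have h2 := Nat.totient_dvd_of_dvd ((dvd_pow_self (j + 1) two_ne_zero).trans ⟨m, hm⟩)
        rw [Nat.totient_prime hp, Nat.add_sub_cancel] at h2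
        exact Nat.le_of_dvd (Nat.totient_pos.2 hn) h2
      have hj2 : Nat.totient n ≤ ⌊x⌋₊ := Nat.le_floor hv
      refine Finset.mem_union_left _ (Finset.mem_union_left _ (Finset.mem_biUnion.2
        ⟨j, Finset.mem_Ico.2 ⟨by omega, by omega⟩, ?_⟩))
      by_cases h2 : j + 1 ∣ m
      · refine Finset.mem_union_right _ (mem_covD (by positivity) hm0 ?_ hv)
        rw [hm, cov_pow hp h2]
      · refine Finset.mem_union_left _ (mem_covD (Nat.mul_pos (by omega) (by omega)) hm0 ?_ hv)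
        rw [hm, Nat.totient_mul (Nat.Coprime.pow_left 2 ((Nat.Prime.coprime_iff_not_dvd hp).2 h2)),
          Nat.totient_prime_pow_succ hp 1, pow_one, Nat.add_sub_cancel]
    by_cases h2 : ∃ p, p.Prime ∧ p ≤ K ∧ p ^ (E + 1) ∣ n
    · obtain ⟨p, hp, hKp, m, hm⟩ := h2
      have hm0 : 1 ≤ m := Nat.pos_of_ne_zero fun h0 => by
        rw [h0, mul_zero] at hm
        omega
      refine Finset.mem_union_left _ (Finset.mem_union_right _ (Finset.mem_biUnion.2
        ⟨p, Finset.mem_Icc.2 ⟨hp.two_le, hKp⟩, mem_covD (n := p * m) (pow_pos hp.pos E)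
          (Nat.mul_pos hp.pos hm0) ?_ hv⟩))
      rw [hm, pow_succ, mul_assoc, cov_pow hp (Dvd.intro _ rfl)]
    obtain ⟨c, b, c1, c2, b1, b2, b3, e⟩ := cov_split (K := K) (E := E) hn
      (fun p hp hK hd => h1 ⟨p, hp, hK, hd⟩) fun p hp hK hd => h2 ⟨p, hp, hK, hd⟩
    refine Finset.mem_union_right _ (Finset.mem_biUnion.2 ⟨c, Finset.mem_Icc.2 ⟨c1, c2⟩,
      Finset.mem_image.2 ⟨Nat.totient b, ?_, e.symm⟩⟩)
    rw [hR, Set.Finite.mem_toFinset]
    refine ⟨le_trans ?_ hv, b, b1, b2, fun r hr hrb => ?_, rfl⟩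
    · rw [e]
      exact_mod_cast Nat.le_mul_of_pos_left _ c1
    · have := b3 r hr hrb
      omega
  have hV : (0 : ℝ) ≤ V x := Nat.cast_nonneg _
  have c1 : (B1.card : ℝ) ≤ V x / 4 := by
    have h1 : (B1.card : ℝ) ≤
        ∑ j ∈ Finset.Ico K M, 2 * C * V x * (j : ℝ) ^ (-(3 / 2 : ℝ)) := by
      refine cov_bi _ _ _ fun j hj => ?_
      have hj1 : (1 : ℝ) ≤ j := by
        have := (Finset.mem_Ico.1 hj).1
        exact_mod_cast (by omega : 1 ≤ j)
      have hj2 : (1 : ℝ) ≤ (j : ℝ) ^ 2 := by nlinarith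
      have e : ((j : ℝ) ^ 2) ^ (-(3 / 4 : ℝ)) = (j : ℝ) ^ (-(3 / 2 : ℝ)) := by
        rw [← Real.rpow_natCast, ← Real.rpow_mul (by linarith)]
        norm_num
      have k1 := card_covD hC (h x · hx) (m := (j + 1) * j) hj2 (by push_cast; nlinarith)
      have k2 := card_covD hC (h x · hx) (m := (j + 1) ^ 2) hj2 (by push_cast; nlinarith)
      have k3 : ((covD x ((j + 1) * j) ∪ covD x ((j + 1) ^ 2)).card : ℝ) ≤
          (covD x ((j + 1) * j)).card + (covD x ((j + 1) ^ 2)).card := by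
        exact_mod_cast Finset.card_union_le _ _
      rw [e] at k1 k2
      linarith
    have h2 := hs (Finset.Ico K M) (Finset.disjoint_left.2 fun j hj hj' => by
      have k1 := (Finset.mem_Ico.1 hj).1
      have k2 := hK0 hj'
      omega)
    rw [← Finset.mul_sum] at h1
    have h3 := (le_abs_self _).trans h2.le
    calc (B1.card : ℝ) ≤ 2 * C * V x * (1 / (8 * C)) := h1.trans (by gcongr)
      _ = V x / 4 := by field_simp; ring
  have c2 : (B2.card : ℝ) ≤ V x / 4 := by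
    have h1 : (B2.card : ℝ) ≤ ∑ _p ∈ Finset.Icc 2 K, C * (1 / (4 * C * (K + 1))) * V x := by
      refine cov_bi _ _ _ fun p hp => ?_
      have hp2 : (2 : ℝ) ≤ p := by exact_mod_cast (Finset.mem_Icc.1 hp).1
      have k1 := card_covD hC (h x · hx) (m := p ^ E) (s := 2 ^ E) (one_le_pow₀ (by norm_num))
        (by push_cast; gcongr)
      exact k1.trans (by gcongr)
    rw [Finset.sum_const, Nat.card_Icc, nsmul_eq_mul] at h1
    have h2 : ((K + 1 - 2 : ℕ) : ℝ) ≤ K + 1 := by exact_mod_cast Nat.sub_le _ _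
    calc (B2.card : ℝ) ≤ (K + 1) * (C * (1 / (4 * C * (K + 1))) * V x) := h1.trans (by gcongr)
      _ = V x / 4 := by field_simp
  have c3 : (G.card : ℝ) ≤ L * R.card := by
    have h1 : G.card ≤ ∑ _c ∈ Finset.Icc 1 L, R.card :=
      Finset.card_biUnion_le.trans (Finset.sum_le_sum fun c _ => Finset.card_image_le)
    rw [Finset.sum_const, Nat.card_Icc, Nat.add_sub_cancel, smul_eq_mul] at h1
    exact_mod_cast h1
  have c4 : (V x : ℝ) ≤ B1.card + B2.card + G.card := by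
    have h1 : V x ≤ B1.card + B2.card + G.card := by
      rw [V, Set.ncard_eq_toFinset_card _ (fin_V x)]
      exact (Finset.card_le_card hsub).trans ((Finset.card_union_le _ _).trans
        (Nat.add_le_add_right (Finset.card_union_le _ _) _))
    exact_mod_cast h1
  rw [div_mul_eq_mul_div, one_mul, div_le_iff₀ (by positivity)]
  linarith

end Vale.Agent.N031X
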