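import Mathlib

/-!
# P031: values of Euler's function on stable sets and progressions, definitions
-/

namespace Vale.Agent.N031X

open Filter Topology

/-- `V(x)`: the number of distinct values `v ≤ x` of Euler's function. -/
noncomputable def V (x : ℝ) : ℕ :=
  Set.ncard {v : ℕ | (∃ n : ℕ, 1 ≤ n ∧ Nat.totient n = v) ∧ (v : ℝ) ≤ x}

/-- The number of `v ≤ x` with `φ(n) = v` for at least `k` integers `n ∈ S`, `n ≥ 1`, `t n ≤ x`. -/
noncomputable def N (S : Set ℕ) (k : ℕ) (t x : ℝ) : ℕ :=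
  Set.ncard {v : ℕ | (v : ℝ) ≤ x ∧
    k ≤ Set.ncard {n : ℕ | n ∈ S ∧ 1 ≤ n ∧ t * (n : ℝ) ≤ x ∧ Nat.totient n = v}}

/-- Membership in `A` does not change when `n` is multiplied by a prime `p ≥ P` not dividing it. -/
def Stable (P : ℕ) (A : Set ℕ) : Prop :=
  ∀ p : ℕ, p.Prime → P ≤ p → ∀ n : ℕ, 1 ≤ n → ¬ p ∣ n → (p * n ∈ A ↔ n ∈ A)

/-- the ratio theorem -/
def Q2 : Prop :=
  ∀ c : ℝ, 0 < c → Tendsto (fun x : ℝ => (V (c * x) : ℝ) / V x) atTop (𝓝 c)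

/-- a bound of Potter type -/
def Potter : Prop :=
  ∃ C : ℝ, 0 < C ∧ ∀ x t : ℝ, 1 ≤ x → 1 ≤ t → (V (x / t) : ℝ) ≤ C * t ^ (-(3 / 4 : ℝ)) * V x

/-- most values have no large preimage -/
def Tight : Prop :=
  ∀ ε : ℝ, 0 < ε → ∃ K : ℝ, 1 ≤ K ∧ ∀ x : ℝ, 1 ≤ x →
    (Set.ncard {v : ℕ | (v : ℝ) ≤ x ∧ ∃ n : ℕ, 1 ≤ n ∧ Nat.totient n = v ∧ K * (v : ℝ) < n} : ℝ) ≤
      ε * V x

/-- a positive proportion of the values is taken on squarefree integers without small primes -/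
def Cover : Prop :=
  ∀ P : ℕ, ∃ δ : ℝ, 0 < δ ∧ ∀ x : ℝ, 1 ≤ x →
    δ * V x ≤ (Set.ncard {v : ℕ | (v : ℝ) ≤ x ∧ ∃ b : ℕ, 1 ≤ b ∧ Squarefree b ∧
      (∀ r : ℕ, r.Prime → r ∣ b → P ≤ r) ∧ Nat.totient b = v} : ℝ)

/-- the lower bound -/
def Low : Prop :=
  ∀ (A : Set ℕ) (P q a k : ℕ), Stable P A → 1 ≤ q → 1 ≤ k →
    (∃ v : ℕ, k ≤ Set.ncard {n : ℕ | n ∈ A ∧ n ≡ a [MOD q] ∧ 1 ≤ n ∧ Nat.totient n = v}) →
    ∃ δ : ℝ, 0 < δ ∧ ∀ᶠ x : ℝ in atTop, ∀ t : ℝ, 0 ≤ t → t ≤ 1 →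
      δ * V x ≤ N {n : ℕ | n ∈ A ∧ n ≡ a [MOD q]} k t x

theorem fin_le (x : ℝ) (Q : ℕ → Prop) : {v : ℕ | (v : ℝ) ≤ x ∧ Q v}.Finite :=
  (Set.finite_Iic ⌊x⌋₊).subset fun _ hv => Nat.le_floor hv.1

theorem fin_V (x : ℝ) :
    {v : ℕ | (∃ n : ℕ, 1 ≤ n ∧ Nat.totient n = v) ∧ (v : ℝ) ≤ x}.Finite :=
  (Set.finite_Iic ⌊x⌋₊).subset fun _ hv => Nat.le_floor hv.2

theorem V_mono {x y : ℝ} (h : x ≤ y) : V x ≤ V y :=
  Set.ncard_le_ncard (fun _ hv => ⟨hv.1, hv.2.trans h⟩) (fin_V y)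

theorem one_le_V {x : ℝ} (hx : 1 ≤ x) : 1 ≤ V x :=
  (Set.ncard_pos (fin_V x)).2 ⟨1, ⟨1, le_rfl, Nat.totient_one⟩, by simpa using hx⟩

theorem le_two_sq (n : ℕ) : n ≤ 2 * Nat.totient n ^ 2 := by
  have key : ∀ n : ℕ, (Odd n → n ≤ Nat.totient n ^ 2) ∧ n ≤ 2 * Nat.totient n ^ 2 := by
    intro n
    induction n using Nat.recOnPosPrimePosCoprime with
    | zero => simp
    | one => simp
    | prime_pow p e hp he =>
      obtain ⟨f, rfl⟩ : ∃ f, e = f + 1 := ⟨e - 1, by omega⟩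
      rw [Nat.totient_prime_pow_succ hp]
      have h2 := hp.two_le
      have h1 : 1 ≤ p ^ f := Nat.one_le_pow _ _ hp.pos
      obtain ⟨r, rfl⟩ : ∃ r, p = r + 1 := ⟨p - 1, by omega⟩
      simp only [Nat.add_sub_cancel]
      generalize hu : (r + 1) ^ f = u at h1
      have e1 : (r + 1) ^ (f + 1) = u * (r + 1) := by rw [pow_succ, hu]
      rw [e1]
      have h3 : u ≤ u ^ 2 := by nlinarith
      constructor
      · intro ho
        have h4 : 2 ≤ r := by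
          by_contra h5
          have h6 : r = 1 := by omega
          subst h6
          exact (Nat.not_odd_iff_even.2 ⟨u, by ring⟩) ho
        have h5 : r + 1 ≤ r ^ 2 := by nlinarith
        calc u * (r + 1) ≤ u ^ 2 * r ^ 2 := Nat.mul_le_mul h3 h5
          _ = (u * r) ^ 2 := by ring
      · have h5 : r + 1 ≤ 2 * r ^ 2 := by nlinarith
        calc u * (r + 1) ≤ u ^ 2 * (2 * r ^ 2) := Nat.mul_le_mul h3 h5
          _ = 2 * (u * r) ^ 2 := by ring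
    | coprime a b ha hb hab iha ihb =>
      rw [Nat.totient_mul hab]
      constructor
      · intro ho
        obtain ⟨h1, h2⟩ := Nat.odd_mul.1 ho
        calc a * b ≤ Nat.totient a ^ 2 * Nat.totient b ^ 2 := Nat.mul_le_mul (iha.1 h1) (ihb.1 h2)
          _ = _ := by ring
      · rcases Nat.even_or_odd a with h1 | h1
        · have h2 : Odd b := by
            by_contra h3
            have h4 := Nat.dvd_gcd h1.two_dvd (Nat.not_odd_iff_even.1 h3).two_dvd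
            rw [hab] at h4
            omega
          calc a * b ≤ 2 * Nat.totient a ^ 2 * Nat.totient b ^ 2 := Nat.mul_le_mul iha.2 (ihb.1 h2)
            _ = _ := by ring
        · calc a * b ≤ Nat.totient a ^ 2 * (2 * Nat.totient b ^ 2) :=
                Nat.mul_le_mul (iha.1 h1) ihb.2
            _ = _ := by ring
  exact (key n).2

theorem fin_pre (v : ℕ) : {n : ℕ | Nat.totient n = v}.Finite :=
  (Set.finite_Iic (2 * v ^ 2)).subset fun n hn => by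
    have h := le_two_sq n
    rw [show Nat.totient n = v from hn] at h
    exact h

end Vale.Agent.N031X
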