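import Vale.Agent.N031X.Defs

/-!
# P031: the lower bound for the counting functions
-/

namespace Vale.Agent.N031X

open Filter Topology

theorem stable_mul {P : ℕ} {A : Set ℕ} (hA : Stable P A) {n : ℕ} (hn : 1 ≤ n) (hnA : n ∈ A) :
    ∀ b : ℕ, Squarefree b → (∀ r : ℕ, r.Prime → r ∣ b → P ≤ r ∧ ¬ r ∣ n) → b * n ∈ A := by
  intro b
  induction b using induction_on_primes with
  | zero => exact fun h => absurd h not_squarefree_zero
  | one => intro _ _; rwa [one_mul]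
  | prime_mul p b hp ih =>
    intro hs hr
    have h1 : ¬ p ∣ b := fun h => hp.not_isUnit (hs p (Nat.mul_dvd_mul_left p h))
    have h2 : b ≠ 0 := fun h => h1 (h ▸ dvd_zero p)
    have h3 := hr p hp (dvd_mul_right p b)
    rw [mul_assoc]
    refine (hA p hp h3.1 (b * n) (Nat.mul_pos (Nat.pos_of_ne_zero h2) hn) ?_).2
      (ih hs.of_mul_right fun r h4 h5 => hr r h4 (h5.mul_left p))
    intro h4
    rcases (Nat.Prime.dvd_mul hp).1 h4 with h5 | h5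
    · exact h1 h5
    · exact h3.2 h5

theorem ev_le (hQ : Q2) {c : ℝ} (hc : 0 < c) :
    ∀ᶠ y : ℝ in atTop, (V (c * y) : ℝ) ≤ (c + 1) * V y := by
  filter_upwards [(hQ c hc).eventually (gt_mem_nhds (show c < c + 1 by linarith only [])),
    eventually_ge_atTop (1 : ℝ)] with y hy hy1
  have hV : (0 : ℝ) < V y := by exact_mod_cast one_le_V hy1
  exact ((div_lt_iff₀ hV).1 hy).le

theorem low (hQ : Q2) (hT : Tight) (hC : Cover) : Low := by
  classical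
  rintro A P q a k hA hq hk ⟨d, hd⟩
  have : NeZero q := ⟨by omega⟩
  obtain ⟨T, hTd⟩ : ∃ T : Set ℕ,
    T = {n : ℕ | n ∈ A ∧ n ≡ a [MOD q] ∧ 1 ≤ n ∧ Nat.totient n = d} := ⟨_, rfl⟩
  rw [← hTd] at hd
  have hmem : ∀ n ∈ T, n ∈ A ∧ n ≡ a [MOD q] ∧ 1 ≤ n ∧ Nat.totient n = d := by
    intro n hn
    rwa [hTd] at hn
  have hd1 : 1 ≤ d := by
    obtain ⟨n, hn⟩ := Set.nonempty_of_ncard_ne_zero (s := T) (by omega)
    obtain ⟨-, -, h1, h2⟩ := hmem n hn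
    rw [← h2]
    exact Nat.totient_pos.2 h1
  have hpr : ∀ c : ZMod q, ∃ p : ℕ, p.Prime ∧ P + q + 2 * d ^ 2 < p ∧
      (IsUnit c → (p : ZMod q) * c = 1) := by
    intro c
    by_cases hc : IsUnit c
    · obtain ⟨u, rfl⟩ := hc
      obtain ⟨p, h1, h2, h3⟩ := Nat.forall_exists_prime_gt_and_eq_mod (u⁻¹).isUnit
        (P + q + 2 * d ^ 2)
      exact ⟨p, h2, h1, fun _ => by rw [h3, Units.inv_mul]⟩
    · obtain ⟨p, h1, h2⟩ := Nat.exists_infinite_primes (P + q + 2 * d ^ 2 + 1)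
      exact ⟨p, h2, h1, fun h => absurd h hc⟩
  choose pr hpr using hpr
  obtain ⟨P₂, hP₂⟩ : ∃ P₂ : ℕ, ∀ c : ZMod q, pr c < P₂ :=
    ⟨Finset.univ.sup pr + 1, fun c => Nat.lt_succ_of_le (Finset.le_sup (Finset.mem_univ c))⟩
  obtain ⟨δ, hδ, hcov⟩ := hC P₂
  obtain ⟨L, hL⟩ : ∃ L : ℝ, L = (d : ℝ) * P₂ := ⟨_, rfl⟩
  have hP₂1 : 1 ≤ P₂ := by have := hP₂ 0; omega
  have hL1 : 1 ≤ L := by
    rw [hL]
    exact_mod_cast Nat.mul_pos hd1 hP₂1
  have hq0 : (0 : ℝ) < q := by exact_mod_cast hq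
  obtain ⟨K, hK, htight⟩ := hT (δ / (2 * q * (L + 1))) (by positivity)
  have hKL : 0 < K * L := by positivity
  refine ⟨δ / (2 * q * (K * L + 1)), by positivity, ?_⟩
  filter_upwards [(tendsto_id.atTop_div_const hKL).eventually
    ((ev_le hQ (show 0 < L by positivity)).and ((ev_le hQ hKL).and
      (eventually_ge_atTop (1 : ℝ))))] with x hx t ht0 ht1
  obtain ⟨y, hy⟩ : ∃ y : ℝ, y = id x / (K * L) := ⟨_, rfl⟩
  rw [← hy] at hx
  obtain ⟨h1, h2, hy1⟩ := hx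
  have hxy : K * L * y = x := by rw [hy, id]; field_simp
  rw [hxy] at h2
  have hLy : 1 ≤ L * y := by nlinarith only [hL1, hy1]
  obtain ⟨G, hG⟩ : ∃ G : Finset ℕ, G = (fin_le (L * y) fun v => k ≤ Set.ncard
    {n : ℕ | n ∈ {n : ℕ | n ∈ A ∧ n ≡ a [MOD q]} ∧ 1 ≤ n ∧ Nat.totient n = v}).toFinset :=
    ⟨_, rfl⟩
  have hGm : ∀ v : ℕ, v ∈ G ↔ (v : ℝ) ≤ L * y ∧ k ≤ Set.ncard
      {n : ℕ | n ∈ {n : ℕ | n ∈ A ∧ n ≡ a [MOD q]} ∧ 1 ≤ n ∧ Nat.totient n = v} := by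
    intro v
    rw [hG, Set.Finite.mem_toFinset]
    rfl
  have s1 : {v : ℕ | (v : ℝ) ≤ y ∧ ∃ b : ℕ, 1 ≤ b ∧ Squarefree b ∧
      (∀ r : ℕ, r.Prime → r ∣ b → P₂ ≤ r) ∧ Nat.totient b = v} ⊆
      ((Finset.univ : Finset (ZMod q)).biUnion fun c =>
        G.image fun w => w / (d * (pr c - 1)) : Finset ℕ) := by
    rintro v ⟨hv, b, hb1, hb2, hb3, rfl⟩
    obtain ⟨p, hp⟩ : ∃ p : ℕ, p = pr (b : ZMod q) := ⟨_, rfl⟩
    obtain ⟨g1, g2, g3⟩ := hpr (b : ZMod q)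
    have g4 := hP₂ (b : ZMod q)
    rw [← hp] at g1 g2 g3 g4
    have hpb : ¬ p ∣ b := fun h => by have := hb3 p g1 h; omega
    have hbig : ∀ r : ℕ, r.Prime → r ∣ p * b → P + q + 2 * d ^ 2 < r := by
      intro r hr h
      rcases (Nat.Prime.dvd_mul hr).1 h with h3 | h3
      · rwa [(Nat.prime_dvd_prime_iff_eq hr g1).1 h3]
      · have := hb3 r hr h3
        omega
    have hbu : IsUnit (b : ZMod q) := by
      rw [ZMod.isUnit_iff_coprime]
      refine Nat.coprime_of_dvd fun r hr h3 h4 => ?_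
      have h5 := hbig r hr (h3.mul_left p)
      have h6 := Nat.le_of_dvd hq h4
      omega
    have hcop : Nat.Coprime p b := (Nat.Prime.coprime_iff_not_dvd g1).2 hpb
    have hsq : Squarefree (p * b) := (Nat.squarefree_mul hcop).2 ⟨g1.squarefree, hb2⟩
    have hp2 := g1.two_le
    have hpos : 0 < d * (p - 1) := Nat.mul_pos hd1 (by omega)
    rw [Finset.mem_coe, Finset.mem_biUnion]
    refine ⟨(b : ZMod q), Finset.mem_univ _, Finset.mem_image.2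
      ⟨d * (p - 1) * Nat.totient b, (hGm _).2 ⟨?_, ?_⟩, ?_⟩⟩
    · have h3 : ((p - 1 : ℕ) : ℝ) ≤ P₂ := by exact_mod_cast (show p - 1 ≤ P₂ by omega)
      rw [hL]
      push_cast
      gcongr
    · have hpb0 : 0 < p * b := Nat.mul_pos g1.pos hb1
      rw [← Set.ncard_image_of_injective T (f := fun n => p * b * n)
        (fun u v h => Nat.eq_of_mul_eq_mul_left hpb0 h)] at hd
      refine hd.trans (Set.ncard_le_ncard ?_ ((fin_pre _).subset fun n hn => hn.2.2))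
      rintro _ ⟨n, hn, rfl⟩
      obtain ⟨n1, n2, n3, n4⟩ := hmem n hn
      have n5 : n ≤ 2 * d ^ 2 := by have := le_two_sq n; rwa [n4] at this
      have n6 : ∀ r : ℕ, r.Prime → r ∣ p * b → P ≤ r ∧ ¬ r ∣ n := by
        intro r hr h
        have h5 := hbig r hr h
        refine ⟨by omega, fun h6 => ?_⟩
        have h7 := Nat.le_of_dvd n3 h6
        omega
      refine ⟨⟨stable_mul hA n3 n1 _ hsq n6, ?_⟩, Nat.mul_pos hpb0 n3, ?_⟩
      · rw [← ZMod.natCast_eq_natCast_iff] at n2 ⊢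
        push_cast
        rw [g3 hbu, one_mul, n2]
      · have h5 : Nat.Coprime (p * b) n :=
          Nat.coprime_of_dvd fun r hr h5 h6 => (n6 r hr h5).2 h6
        show Nat.totient (p * b * n) = _
        rw [Nat.totient_mul h5, Nat.totient_mul hcop, Nat.totient_prime g1, n4]
        ring
    · rw [← hp, Nat.mul_div_cancel_left _ hpos]
  have s2 : δ * V y ≤ q * (G.card : ℝ) := by
    refine (hcov y hy1).trans ?_
    have h3 := Set.ncard_le_ncard s1 (Finset.finite_toSet _)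
    rw [Set.ncard_coe_finset] at h3
    have h4 := h3.trans (Finset.card_biUnion_le_card_mul _ _ G.card fun c _ =>
      Finset.card_image_le)
    rw [Finset.card_univ, ZMod.card] at h4
    exact_mod_cast h4
  have s3 : (G : Set ℕ) ⊆ {v : ℕ | (v : ℝ) ≤ x ∧ k ≤ Set.ncard {n : ℕ |
      n ∈ {n : ℕ | n ∈ A ∧ n ≡ a [MOD q]} ∧ 1 ≤ n ∧ t * (n : ℝ) ≤ x ∧ Nat.totient n = v}} ∪
      {v : ℕ | (v : ℝ) ≤ L * y ∧ ∃ n : ℕ, 1 ≤ n ∧ Nat.totient n = v ∧ K * (v : ℝ) < n} := by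
    intro v hv
    obtain ⟨h3, h4⟩ := (hGm v).1 hv
    by_cases h5 : ∃ n : ℕ, 1 ≤ n ∧ Nat.totient n = v ∧ K * (v : ℝ) < n
    · exact Or.inr ⟨h3, h5⟩
    · refine Or.inl ⟨by nlinarith only [h3, hxy, hK, hLy], h4.trans (Set.ncard_le_ncard ?_
        ((fin_pre v).subset fun n hn => hn.2.2.2))⟩
      rintro n ⟨n1, n2, n3⟩
      have n4 : (n : ℝ) ≤ K * v := not_lt.1 fun h => h5 ⟨n, n2, n3, h⟩
      have n5 : (0 : ℝ) ≤ n := Nat.cast_nonneg n
      refine ⟨n1, n2, ?_, n3⟩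
      have n6 : K * (v : ℝ) ≤ K * (L * y) := by gcongr
      nlinarith only [n4, n5, n6, hxy, ht1]
  have s4 : (G.card : ℝ) ≤ N {n : ℕ | n ∈ A ∧ n ≡ a [MOD q]} k t x +
      δ / (2 * q * (L + 1)) * V (L * y) := by
    have h3 := (Set.ncard_le_ncard s3 ((fin_le _ _).union (fin_le _ _))).trans
      (Set.ncard_union_le _ _)
    rw [Set.ncard_coe_finset] at h3
    have h4 := htight (L * y) hLy
    have h5 : (G.card : ℝ) ≤ N {n : ℕ | n ∈ A ∧ n ≡ a [MOD q]} k t x + (Set.ncard {v : ℕ |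
        (v : ℝ) ≤ L * y ∧ ∃ n : ℕ, 1 ≤ n ∧ Nat.totient n = v ∧ K * (v : ℝ) < n} : ℝ) := by
      exact_mod_cast h3
    linarith only [h4, h5]
  have s5 : δ / (2 * q * (L + 1)) * V (L * y) ≤ δ / (2 * q) * V y := by
    calc δ / (2 * q * (L + 1)) * (V (L * y) : ℝ) ≤ δ / (2 * q * (L + 1)) * ((L + 1) * V y) := by
          gcongr
      _ = _ := by field_simp
  have s6 : δ / (2 * q * (K * L + 1)) * V x ≤ δ / (2 * q) * V y := by
    calc δ / (2 * q * (K * L + 1)) * (V x : ℝ) ≤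
          δ / (2 * q * (K * L + 1)) * ((K * L + 1) * V y) := by gcongr
      _ = _ := by field_simp
  have s7 : 2 * (δ / (2 * q) * V y) ≤ G.card := by
    rw [show 2 * (δ / (2 * q) * (V y : ℝ)) = δ * V y / q by field_simp, div_le_iff₀' hq0]
    exact s2
  linarith only [s4, s5, s6, s7]

end Vale.Agent.N031X
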