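import Vale.Agent.N031X.Defs

/-!
# P031: a bound of Potter type
-/

namespace Vale.Agent.N031X

open Filter Topology

theorem V_le_self {y : ℝ} (hy : 0 ≤ y) : (V y : ℝ) ≤ y := by
  have h1 : V y ≤ (Set.Icc 1 ⌊y⌋₊).ncard := by
    refine Set.ncard_le_ncard ?_ (Set.finite_Icc _ _)
    rintro v ⟨⟨n, hn, rfl⟩, hv⟩
    exact ⟨Nat.totient_pos.2 hn, Nat.le_floor hv⟩
  rw [← Finset.coe_Icc, Set.ncard_coe_finset, Nat.card_Icc, Nat.add_sub_cancel] at h1
  exact le_trans (by exact_mod_cast h1) (Nat.floor_le hy)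

theorem potter (h : Q2) : Potter := by
  have h1 := (h (1 / 16) (by norm_num)).eventually (gt_mem_nhds (show (1 : ℝ) / 16 < 1 / 8 by
    norm_num))
  obtain ⟨x₀, hx₀⟩ := eventually_atTop.1 (h1.and (eventually_ge_atTop (16 : ℝ)))
  have hx16 : 16 ≤ x₀ := (hx₀ x₀ le_rfl).2
  have key : ∀ j : ℕ, ∀ x : ℝ, 1 ≤ x → (V (x / 16 ^ j) : ℝ) ≤ x₀ / 8 ^ j * V x := by
    intro j
    induction j with
    | zero =>
      intro x _
      rw [pow_zero, pow_zero, div_one, div_one]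
      have h0 : (0 : ℝ) ≤ V x := Nat.cast_nonneg _
      nlinarith only [h0, hx16]
    | succ j ih =>
      intro x hx
      have hV : (1 : ℝ) ≤ V x := by exact_mod_cast one_le_V hx
      rcases le_or_gt x₀ x with h2 | h2
      · obtain ⟨h3, h4⟩ := hx₀ x h2
        rw [div_lt_iff₀ (by linarith only [hV])] at h3
        have h5 := ih (1 / 16 * x) (by linarith only [h4])
        rw [show 1 / 16 * x / 16 ^ j = x / 16 ^ (j + 1) by rw [pow_succ]; field_simp] at h5
        refine h5.trans ?_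
        calc x₀ / 8 ^ j * (V (1 / 16 * x) : ℝ) ≤ x₀ / 8 ^ j * (1 / 8 * V x) := by gcongr
          _ = _ := by rw [pow_succ]; field_simp
      · refine (V_le_self (by positivity)).trans ?_
        calc x / 16 ^ (j + 1) ≤ x₀ / 8 ^ (j + 1) := by gcongr; norm_num
          _ = x₀ / 8 ^ (j + 1) * 1 := (mul_one _).symm
          _ ≤ _ := by gcongr
  refine ⟨8 * x₀, by positivity, fun x t hx ht => ?_⟩
  obtain ⟨j, hj1, hj2⟩ := exists_nat_pow_near ht (show (1 : ℝ) < 16 by norm_num)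
  have h2 : (V (x / t) : ℝ) ≤ V (x / 16 ^ j) := by
    have : x / t ≤ x / 16 ^ j := by gcongr
    exact_mod_cast V_mono this
  have h3 : ((16 : ℝ) ^ (j + 1)) ^ (-(3 / 4 : ℝ)) = 1 / 8 ^ (j + 1) := by
    rw [show (16 : ℝ) = 2 ^ 4 by norm_num, show (8 : ℝ) = 2 ^ 3 by norm_num, ← pow_mul, ← pow_mul,
      ← Real.rpow_natCast, ← Real.rpow_mul (by norm_num), one_div, ← Real.rpow_natCast,
      ← Real.rpow_neg (by norm_num)]
    congr 1
    push_cast
    ring
  have h4 : 1 / 8 ^ (j + 1) ≤ t ^ (-(3 / 4 : ℝ)) := by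
    rw [← h3]
    exact Real.rpow_le_rpow_of_nonpos (by linarith only [ht]) hj2.le (by norm_num)
  refine h2.trans ((key j x hx).trans ?_)
  calc x₀ / 8 ^ j * (V x : ℝ) = 8 * x₀ * (1 / 8 ^ (j + 1)) * V x := by rw [pow_succ]; field_simp
    _ ≤ _ := by gcongr

end Vale.Agent.N031X
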