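import Vale.Agent.N031X.Defs
import Vale.Agent.P031.H577.AP

/-!
# P031: counting primes in progressions below a moving threshold
-/

namespace Vale.Agent.N031X

open Finset Filter Topology Vale.Agent.PNT

theorem piAP_mono {q : ℕ} (b : ZMod q) {y z : ℝ} (h : y ≤ z) : piAP b y ≤ piAP b z := by
  unfold piAP
  refine card_le_card (filter_subset_filter _ (Icc_subset_Icc_right (Nat.floor_le_floor h)))

theorem PB (q : ℕ) [NeZero q] (ε : ℝ) (hε : 0 < ε) : ∃ η : ℝ, 0 < η ∧ ∀ᶠ x : ℝ in atTop,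
    ∀ b : ZMod q, IsUnit b → ∀ (g : ℝ) (c : ℕ), 1 ≤ g → Real.log g ≤ η * Real.log x →
      piAP b (x / g) ≤ c → c ≤ piAP b (x / g + 1) →
      |(c : ℝ) - x / Real.log x * ((q.totient : ℝ)⁻¹ / g)| ≤ ε * (x / Real.log x * (1 / g)) := by
  obtain ⟨θ, hθ0, hθ1, hθ2⟩ : ∃ θ : ℝ, 0 < θ ∧ θ ≤ 1 / 8 ∧ 5 * θ ≤ ε :=
    ⟨min (1 / 8) (ε / 5), by positivity, min_le_left _ _, by
      linarith only [min_le_right (1 / 8 : ℝ) (ε / 5)]⟩
  obtain ⟨f, hf⟩ : ∃ f : ℝ, f = (q.totient : ℝ)⁻¹ := ⟨_, rfl⟩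
  have hq1 : (1 : ℝ) ≤ q.totient := by exact_mod_cast Nat.totient_pos.2 (NeZero.pos q)
  have hf0 : 0 < f := by rw [hf]; positivity
  have hf1 : f ≤ 1 := by rw [hf]; exact inv_le_one_of_one_le₀ hq1
  have h1 : ∀ᶠ y : ℝ in atTop, ∀ b : ZMod q, IsUnit b →
      |(piAP b y : ℝ) * Real.log y / y - f| ≤ θ := by
    rw [Filter.eventually_all]
    intro b
    by_cases hb : IsUnit b
    · have h2 := Metric.tendsto_nhds.1 (piAP_mul_log_div_tendsto hb) θ hθ0
      filter_upwards [h2] with y hy _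
      rw [Real.dist_eq, ← hf] at hy
      exact hy.le
    · exact Eventually.of_forall fun y h => absurd h hb
  obtain ⟨Y, hY⟩ := eventually_atTop.1 (h1.and ((eventually_ge_atTop (1 / θ)).and
    (eventually_ge_atTop (3 : ℝ))))
  refine ⟨θ, hθ0, ?_⟩
  filter_upwards [Real.tendsto_log_atTop.eventually_ge_atTop (2 * Real.log (max Y 1)),
    eventually_ge_atTop (3 : ℝ)] with x hx hx3 b hb g c hg hlg hc1 hc2
  have hx0 : 0 < x := by linarith only [hx3]
  have hg0 : 0 < g := by linarith only [hg]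
  have hL : 0 < Real.log x := Real.log_pos (by linarith only [hx3])
  obtain ⟨y, hy⟩ : ∃ y : ℝ, y = x / g := ⟨_, rfl⟩
  have hy0 : 0 < y := by rw [hy]; positivity
  have hly : Real.log y = Real.log x - Real.log g := by rw [hy, Real.log_div hx0.ne' hg0.ne']
  have hlg0 : 0 ≤ Real.log g := Real.log_nonneg hg
  have hYy : Y ≤ y := by
    refine (le_max_left Y 1).trans ?_
    rw [← Real.log_le_log_iff (by positivity) hy0, hly]
    nlinarith only [hx, hlg, hθ1, hL]
  obtain ⟨a1, a2, a3⟩ := hY y hYy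
  obtain ⟨b1, -, -⟩ := hY (y + 1) (by linarith only [hYy])
  replace a1 := (abs_le.1 (a1 b hb)).1
  replace b1 := (abs_le.1 (b1 b hb)).2
  rw [← hy] at hc1 hc2
  have hc1' : (piAP b y : ℝ) ≤ c := by exact_mod_cast hc1
  have hc2' : (c : ℝ) ≤ piAP b (y + 1) := by exact_mod_cast hc2
  have e1 : x / Real.log x * ((q.totient : ℝ)⁻¹ / g) = f * (y / Real.log x) := by
    rw [hf, hy]; field_simp
  have e2 : x / Real.log x * (1 / g) = y / Real.log x := by rw [hy]; field_simp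
  rw [e1, e2]
  obtain ⟨u, hu⟩ : ∃ u : ℝ, u = y / Real.log x := ⟨_, rfl⟩
  have hu0 : 0 < u := by rw [hu]; positivity
  have hyu : y = u * Real.log x := by rw [hu]; field_simp
  rw [← hu]
  have hp0 : (0 : ℝ) ≤ piAP b y := Nat.cast_nonneg _
  have hp1 : (0 : ℝ) ≤ piAP b (y + 1) := Nat.cast_nonneg _
  have low : (f - θ) * u ≤ piAP b y := by
    have h2 : (f - θ) * y ≤ piAP b y * Real.log y := by
      rw [← le_div_iff₀ hy0]; linarith only [a1]
    have h3 : (piAP b y : ℝ) * Real.log y ≤ piAP b y * Real.log x := by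
      gcongr; rw [hy]; exact div_le_self hx0.le hg
    have h4 : (f - θ) * u * Real.log x ≤ piAP b y * Real.log x := by
      rw [mul_assoc, ← hyu]; exact h2.trans h3
    exact le_of_mul_le_mul_right h4 hL
  have upp : (piAP b (y + 1) : ℝ) ≤ (f + 5 * θ) * u := by
    have h2 : piAP b (y + 1) * Real.log (y + 1) ≤ (f + θ) * (y + 1) := by
      rw [← div_le_iff₀ (by linarith only [hy0])]; linarith only [b1]
    have h3 : (1 - θ) * Real.log x ≤ Real.log (y + 1) := by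
      have := Real.log_le_log hy0 (show y ≤ y + 1 by linarith only [])
      linarith only [this, hly, hlg]
    have h4 : y + 1 ≤ (1 + θ) * y := by
      rw [div_le_iff₀ hθ0] at a2
      linarith only [a2]
    have h5 : piAP b (y + 1) * ((1 - θ) * Real.log x) ≤ (f + θ) * ((1 + θ) * y) := by
      calc _ ≤ piAP b (y + 1) * Real.log (y + 1) := by gcongr
        _ ≤ (f + θ) * (y + 1) := h2
        _ ≤ _ := by gcongr
    have h6 : (f + θ) * (1 + θ) ≤ (f + 5 * θ) * (1 - θ) := by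
      nlinarith only [hθ0, hθ1, hf0, hf1, mul_le_mul_of_nonneg_left hf1 hθ0.le]
    have h7 : piAP b (y + 1) * ((1 - θ) * Real.log x) ≤
        (f + 5 * θ) * u * ((1 - θ) * Real.log x) := by
      calc _ ≤ (f + θ) * ((1 + θ) * y) := h5
        _ = (f + θ) * (1 + θ) * y := by ring
        _ ≤ (f + 5 * θ) * (1 - θ) * y := by gcongr
        _ = _ := by rw [hyu]; ring
    exact le_of_mul_le_mul_right h7 (mul_pos (by linarith only [hθ1]) hL)
  have h8 : 5 * θ * u ≤ ε * u := by gcongr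
  have h9 : 0 < θ * u := by positivity
  rw [abs_le]
  constructor
  · linarith only [low, hc1', h8, h9]
  · linarith only [upp, hc2', h8, h9]

open Vale.Agent.P031.H577 in
open Classical in
theorem sand {q : ℕ} (b : ZMod q) {x u : ℝ} (hx : 0 ≤ x) {d : ℕ} (hd : 1 ≤ d) :
    piAP b (x / max (d : ℝ) u) ≤
      ((Prm x d).filter (fun p : ℕ => (p : ZMod q) = b ∧ u * (p : ℝ) ≤ x)).card ∧
    ((Prm x d).filter (fun p : ℕ => (p : ZMod q) = b ∧ u * (p : ℝ) ≤ x)).card ≤
      piAP b (x / max (d : ℝ) u + 1) := by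
  have hd0 : (0 : ℝ) < d := by exact_mod_cast hd
  have hg0 : (0 : ℝ) < max (d : ℝ) u := hd0.trans_le (le_max_left _ _)
  unfold piAP
  constructor
  · refine card_le_card fun p hp => ?_
    rw [mem_filter, Finset.mem_Icc, Nat.le_floor_iff (by positivity), le_div_iff₀ hg0] at hp
    obtain ⟨⟨-, h2⟩, h3, h4⟩ := hp
    have hp0 : (0 : ℝ) ≤ p := Nat.cast_nonneg _
    refine mem_filter.2 ⟨mem_Prm.2 ⟨?_, h3⟩, h4, ?_⟩
    · have h5 : p ≤ ⌊x / (d : ℝ)⌋₊ := by
        rw [Nat.le_floor_iff (by positivity), le_div_iff₀ hd0]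
        exact (mul_le_mul_of_nonneg_left (le_max_left _ _) hp0).trans h2
      omega
    · rw [mul_comm]
      exact (mul_le_mul_of_nonneg_left (le_max_right _ _) hp0).trans h2
  · refine card_le_card fun p hp => ?_
    rw [mem_filter, mem_Prm] at hp
    obtain ⟨⟨h1, h2⟩, h3, h4⟩ := hp
    refine mem_filter.2 ⟨Finset.mem_Icc.2 ⟨h2.pos, ?_⟩, h2, h3⟩
    rcases le_total (d : ℝ) u with h | h
    · rw [max_eq_right h] at hg0 ⊢
      refine Nat.le_floor ?_
      have h5 : (p : ℝ) ≤ x / u := by rw [le_div_iff₀ hg0]; linarith only [h4]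
      linarith only [h5]
    · rw [max_eq_left h, Nat.floor_add_one (by positivity)]
      omega

/-- the `k`-th element of a set of naturals -/
noncomputable def kth (T : Set ℕ) (k : ℕ) : ℕ := sInf {z : ℕ | k ≤ Set.ncard {m ∈ T | m ≤ z}}

theorem kth_le {T : Set ℕ} {k B : ℕ} (hB : ∀ m ∈ T, m ≤ B) (hk : k ≤ T.ncard) : kth T k ≤ B := by
  refine Nat.sInf_le ?_
  have : {m ∈ T | m ≤ B} = T := by
    ext m
    exact ⟨fun h => h.1, fun h => ⟨h, hB m h⟩⟩
  show k ≤ Set.ncard {m ∈ T | m ≤ B}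
  rwa [this]

theorem kth_iff {T : Set ℕ} (hT : T.Finite) {k : ℕ} (hk : 1 ≤ k) {s x : ℝ} (hs : 0 ≤ s) :
    k ≤ Set.ncard {m ∈ T | s * (m : ℝ) ≤ x} ↔ k ≤ T.ncard ∧ s * (kth T k : ℝ) ≤ x := by
  have hfin : {m ∈ T | s * (m : ℝ) ≤ x}.Finite := hT.subset fun m hm => hm.1
  constructor
  · intro h
    refine ⟨h.trans (Set.ncard_le_ncard (fun m hm => hm.1) hT), ?_⟩
    have hne : {m ∈ T | s * (m : ℝ) ≤ x}.Nonempty := (Set.ncard_pos hfin).1 (by omega)
    obtain ⟨z, hz, hmax⟩ := Set.exists_max_image _ id hfin hne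
    have h1 : kth T k ≤ z := by
      refine Nat.sInf_le (h.trans (Set.ncard_le_ncard (fun m hm => ⟨hm.1, hmax m hm⟩) ?_))
      exact hT.subset fun m hm => hm.1
    have h2 : (kth T k : ℝ) ≤ z := by exact_mod_cast h1
    exact (mul_le_mul_of_nonneg_left h2 hs).trans hz.2
  · rintro ⟨h1, h2⟩
    obtain ⟨B, hB⟩ := hT.bddAbove
    have hne : {z : ℕ | k ≤ Set.ncard {m ∈ T | m ≤ z}}.Nonempty := by
      refine ⟨B, ?_⟩
      have : {m ∈ T | m ≤ B} = T := by
        ext m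
        exact ⟨fun h => h.1, fun h => ⟨h, hB h⟩⟩
      show k ≤ Set.ncard {m ∈ T | m ≤ B}
      rwa [this]
    have h3 : k ≤ Set.ncard {m ∈ T | m ≤ kth T k} := Nat.sInf_mem hne
    refine h3.trans (Set.ncard_le_ncard (fun m hm => ⟨hm.1, ?_⟩) hfin)
    have h4 : (m : ℝ) ≤ kth T k := by exact_mod_cast hm.2
    exact (mul_le_mul_of_nonneg_left h4 hs).trans h2

end Vale.Agent.N031X
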