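import Vale.Agent.N031X.Slow

/-!
# P031: ratios and cluster values
-/

namespace Vale.Agent.N031X

open Filter Topology Vale.Agent.P031

theorem q2 : Q2 := fun c hc => Vale.Agent.P031.main c hc

/-- the dilations by a bounded factor lie in the window -/
theorem in_window (B δ : ℝ) (hδ : 0 < δ) : ∀ᶠ x : ℝ in atTop, ∀ c : ℝ, 0 < c →
    |Real.log c| ≤ B → 3 ≤ c * x ∧ |ll (c * x) - ll x| ≤ δ * (ll x) ^ ((19 : ℝ) / 20) := by
  have hlim : Tendsto (fun x : ℝ => ll x ^ ((19 : ℝ) / 20)) atTop atTop :=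
    (tendsto_rpow_atTop (by norm_num)).comp (Real.tendsto_log_atTop.comp Real.tendsto_log_atTop)
  filter_upwards [hlim.eventually_ge_atTop (1 / δ), eventually_ge_atTop (3 : ℝ),
    Real.tendsto_log_atTop.eventually_ge_atTop (2 * B),
    Real.tendsto_log_atTop.eventually_ge_atTop (2 * Real.log 3)] with x h1 hx3 h2 h3 c hc hB
  have hx0 : 0 < x := by linarith only [hx3]
  have hL : 0 < Real.log x := Real.log_pos (by linarith only [hx3])
  obtain ⟨ha, hb⟩ := abs_le.1 hB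
  have hlc : Real.log (c * x) = Real.log c + Real.log x := Real.log_mul hc.ne' hx0.ne'
  refine ⟨?_, ?_⟩
  · rw [← Real.log_le_log_iff (by norm_num) (by positivity), hlc]
    linarith only [ha, h2, h3]
  · rw [div_le_iff₀' hδ] at h1
    refine le_trans ?_ h1
    have hpos : 0 < Real.log c + Real.log x := by linarith only [ha, h2, hL]
    have h4 : ll (c * x) - ll x = Real.log ((Real.log c + Real.log x) / Real.log x) := by
      rw [ll, ll, hlc, Real.log_div hpos.ne' hL.ne']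
    have h5 : (Real.log c + Real.log x) / Real.log x ≤ 3 / 2 := by
      rw [div_le_iff₀ hL]; linarith only [hb, h2]
    have h6 : 1 / 2 ≤ (Real.log c + Real.log x) / Real.log x := by
      rw [le_div_iff₀ hL]; linarith only [h2, ha]
    rw [h4, abs_le]
    constructor
    · have h7 := Real.one_sub_inv_le_log_of_pos (show (0 : ℝ) < 1 / 2 by norm_num)
      have h8 := Real.log_le_log (by norm_num) h6
      norm_num at h7
      linarith only [h7, h8]
    · have h7 := Real.log_le_sub_one_of_pos (div_pos hpos hL)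
      linarith only [h7, h5]

/-- the ratio theorem for a class of positive lower proportion -/
theorem ratio_of {f : ℝ → ℕ} {δ : ℝ} (hδ : 0 < δ) (hlow : ∀ᶠ x : ℝ in atTop, δ * V x ≤ f x)
    {c : ℝ} (hc : 0 < c)
    (h : Tendsto (fun x : ℝ => (f (c * x) : ℝ) / V (c * x) - (f x : ℝ) / V x) atTop (𝓝 0)) :
    Tendsto (fun x : ℝ => (f (c * x) : ℝ) / f x) atTop (𝓝 c) := by
  have h1 : Tendsto (fun x : ℝ => ((f (c * x) : ℝ) / V (c * x) - (f x : ℝ) / V x) *
      ((V x : ℝ) / f x)) atTop (𝓝 0) := by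
    refine Filter.Tendsto.zero_mul_isBoundedUnder_le h ⟨1 / δ, ?_⟩
    rw [eventually_map]
    filter_upwards [hlow, eventually_ge_atTop (1 : ℝ)] with x hx hx1
    have hV : (0 : ℝ) < V x := by exact_mod_cast one_le_V hx1
    have hf : (0 : ℝ) < f x := lt_of_lt_of_le (by positivity) hx
    show ‖(V x : ℝ) / f x‖ ≤ 1 / δ
    rw [Real.norm_of_nonneg (by positivity), div_le_div_iff₀ hf hδ]
    linarith only [hx]
  have h2 := (h1.add_const 1).mul (q2 c hc)
  rw [zero_add, one_mul] at h2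
  refine h2.congr' ?_
  filter_upwards [hlow, eventually_ge_atTop (1 : ℝ),
    (tendsto_id.const_mul_atTop hc).eventually_ge_atTop (1 : ℝ)] with x hx hx1 hcx
  have hV : (0 : ℝ) < V x := by exact_mod_cast one_le_V hx1
  have hV' : (0 : ℝ) < V (c * x) := by exact_mod_cast one_le_V hcx
  have hf : (0 : ℝ) < f x := lt_of_lt_of_le (by positivity) hx
  field_simp
  ring

/-- the cluster values of a bounded, slowly oscillating function form an interval -/
theorem cluster {g : ℝ → ℝ} {δ : ℝ} (hb : ∀ᶠ x : ℝ in atTop, δ ≤ g x ∧ g x ≤ 1)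
    (hs : ∀ ε : ℝ, 0 < ε → ∀ᶠ x : ℝ in atTop, ∀ y : ℝ, x ≤ y → y ≤ 2 * x → |g y - g x| ≤ ε) :
    ∃ α β : ℝ, δ ≤ α ∧ α ≤ β ∧ β ≤ 1 ∧ {r : ℝ | MapClusterPt r atTop g} = Set.Icc α β := by
  have b1 : IsBoundedUnder (· ≤ ·) atTop g := ⟨1, by
    rw [eventually_map]; exact hb.mono fun x hx => hx.2⟩
  have b2 : IsBoundedUnder (· ≥ ·) atTop g := ⟨δ, by
    rw [eventually_map]; exact hb.mono fun x hx => hx.1⟩
  have hG := isGreatest_mapClusterPt_limsup (u := g) (f := atTop) b2.isCoboundedUnder_le b1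
  have hL := isLeast_mapClusterPt_liminf (u := g) (f := atTop) b1.isCoboundedUnder_ge b2
  refine ⟨liminf g atTop, limsup g atTop,
    le_liminf_of_le b1.isCoboundedUnder_ge (hb.mono fun x hx => hx.1), hL.2 hG.1,
    limsup_le_of_le b2.isCoboundedUnder_le (hb.mono fun x hx => hx.2), ?_⟩
  ext r
  refine ⟨fun h => ⟨hL.2 h, hG.2 h⟩, fun ⟨h1, h2⟩ => ?_⟩
  refine (Metric.nhds_basis_closedBall (x := r)).mapClusterPt_iff_frequently.2 fun ε hε => ?_
  rw [frequently_atTop]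
  intro X
  obtain ⟨X₁, hX₁⟩ := eventually_atTop.1 ((hs ε hε).and (eventually_ge_atTop (1 : ℝ)))
  have f1 : ∃ᶠ x : ℝ in atTop, g x < r + ε :=
    hL.1.frequently (p := fun y => y < r + ε) (gt_mem_nhds (by linarith only [h1, hε]))
  have f2 : ∃ᶠ x : ℝ in atTop, r - ε < g x :=
    hG.1.frequently (p := fun y => r - ε < y) (lt_mem_nhds (by linarith only [h2, hε]))
  obtain ⟨x₁, hx₁, g1⟩ := frequently_atTop.1 f1 (max X X₁)
  obtain ⟨x₂, hx₂, g2⟩ := frequently_atTop.1 f2 x₁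
  have hx1 : 1 ≤ x₁ := (hX₁ x₁ ((le_max_right _ _).trans hx₁)).2
  by_contra hcon
  have hno : ∀ z : ℝ, x₁ ≤ z → g z < r + ε → g z < r - ε := by
    intro z hz h3
    by_contra h4
    refine hcon ⟨z, ((le_max_left _ _).trans hx₁).trans hz, ?_⟩
    rw [Metric.mem_closedBall, Real.dist_eq, abs_le]
    constructor <;> linarith only [h3, not_lt.1 h4]
  have key : ∀ j : ℕ, g (min (2 ^ j * x₁) x₂) < r - ε := by
    intro j
    induction j with
    | zero => rw [pow_zero, one_mul, min_eq_left hx₂]; exact hno _ le_rfl g1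
    | succ j ih =>
      have h3 : (1 : ℝ) ≤ 2 ^ j := one_le_pow₀ (by norm_num)
      have h4 : x₁ ≤ min (2 ^ j * x₁) x₂ := le_min (by nlinarith only [h3, hx1]) hx₂
      have h5 : min (2 ^ j * x₁) x₂ ≤ min (2 ^ (j + 1) * x₁) x₂ :=
        min_le_min_right _ (by rw [pow_succ]; nlinarith only [h3, hx1])
      have h6 : min (2 ^ (j + 1) * x₁) x₂ ≤ 2 * min (2 ^ j * x₁) x₂ := by
        rw [mul_min_of_nonneg _ _ (by norm_num : (0 : ℝ) ≤ 2)]
        refine min_le_min (le_of_eq (by ring)) (by linarith only [hx₂, hx1])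
      have h7 := (abs_le.1 ((hX₁ _ (((le_max_right _ _).trans hx₁).trans h4)).1 _ h5 h6)).2
      exact hno _ (h4.trans h5) (by linarith only [ih, h7, hε])
  obtain ⟨j, hj⟩ := pow_unbounded_of_one_lt x₂ (show (1 : ℝ) < 2 by norm_num)
  have h3 := key j
  have h4 : (0 : ℝ) < 2 ^ j := by positivity
  rw [min_eq_right (by nlinarith only [hj, hx1, h4])] at h3
  linarith only [h3, g2]

theorem ratios (hL : Low) (A : Set ℕ) (P q a k : ℕ) (t : ℝ) (hA : Stable P A) (hq : 1 ≤ q)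
    (hk : 1 ≤ k) (ht0 : 0 ≤ t) (ht1 : t ≤ 1)
    (hex : ∃ v : ℕ, k ≤ Set.ncard {n : ℕ | n ∈ A ∧ n ≡ a [MOD q] ∧ 1 ≤ n ∧ Nat.totient n = v}) :
    (∀ c : ℝ, 0 < c → Tendsto (fun x : ℝ => (N {n : ℕ | n ∈ A ∧ n ≡ a [MOD q]} k t (c * x) : ℝ) /
      N {n : ℕ | n ∈ A ∧ n ≡ a [MOD q]} k t x) atTop (𝓝 c)) ∧
    ∃ α β : ℝ, 0 < α ∧ α ≤ β ∧ β ≤ 1 ∧ {r : ℝ | MapClusterPt r atTop
      (fun x : ℝ => (N {n : ℕ | n ∈ A ∧ n ≡ a [MOD q]} k t x : ℝ) / V x)} = Set.Icc α β := by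
  obtain ⟨δ, hδ, hlow⟩ := hL A P q a k hA hq hk hex
  replace hlow := hlow.mono fun x hx => hx t ht0 ht1
  have hs : ∀ B ε : ℝ, 0 < ε → ∀ᶠ x : ℝ in atTop, ∀ c : ℝ, 0 < c → |Real.log c| ≤ B →
      |(N {n : ℕ | n ∈ A ∧ n ≡ a [MOD q]} k t (c * x) : ℝ) / V (c * x) -
        (N {n : ℕ | n ∈ A ∧ n ≡ a [MOD q]} k t x : ℝ) / V x| ≤ ε := by
    intro B ε hε
    obtain ⟨δ₁, hδ₁, h⟩ := slow P q ε hq hε
    filter_upwards [h, in_window B δ₁ hδ₁] with x h1 h2 c hc hB
    exact h1 _ (h2 c hc hB).1 (h2 c hc hB).2 A a k t hA hk ht0 ht1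
  refine ⟨fun c hc => ratio_of (f := N {n : ℕ | n ∈ A ∧ n ≡ a [MOD q]} k t) hδ hlow hc ?_, ?_⟩
  · rw [Metric.tendsto_nhds]
    intro ε hε
    filter_upwards [hs |Real.log c| (ε / 2) (by positivity)] with x hx
    rw [Real.dist_eq, sub_zero]
    exact (hx c hc le_rfl).trans_lt (by linarith only [hε])
  · obtain ⟨α, β, h1, h2⟩ := cluster (δ := δ)
      (g := fun x : ℝ => (N {n : ℕ | n ∈ A ∧ n ≡ a [MOD q]} k t x : ℝ) / V x) (by
        filter_upwards [hlow, eventually_ge_atTop (1 : ℝ)] with x hx hx1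
        have hV : (0 : ℝ) < V x := by exact_mod_cast one_le_V hx1
        exact ⟨(le_div_iff₀ hV).2 hx, (div_le_one hV).2 (N_le_V _ hk t x)⟩) (by
        intro ε hε
        filter_upwards [hs 1 ε hε, eventually_gt_atTop (0 : ℝ)] with x hx hx0 y h1 h2
        have h3 : 1 ≤ y / x := (one_le_div hx0).2 h1
        have h4 : y / x ≤ 2 := (div_le_iff₀ hx0).2 h2
        have h5 := hx (y / x) (by linarith only [h3]) (by
          rw [abs_of_nonneg (Real.log_nonneg h3)]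
          linarith only [Real.log_le_sub_one_of_pos (show 0 < y / x by linarith only [h3]), h4])
        rwa [div_mul_cancel₀ _ hx0.ne'] at h5)
    exact ⟨α, β, hδ.trans_le h1, h2⟩

end Vale.Agent.N031X
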