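import Vale.Agent.N031X.App
import Vale.Agent.P031.H951.RegVar

/-!
# P031: slow variation of the proportions on the `log log` scale
-/

namespace Vale.Agent.N031X

open Finset Filter Topology Vale.Agent.P031 Vale.Agent.P031.H577

theorem win (ε η Y : ℝ) (hε : 0 < ε) (hη : 0 < η) : ∀ᶠ x : ℝ in atTop, ∀ y : ℝ, 3 ≤ y →
    |ll y - ll x| ≤ (ll x) ^ ((19 : ℝ) / 20) → Y ≤ y ∧ ∃ F G : Finset ℕ, (F ⊆ G ∨ G ⊆ F) ∧
      (∀ d ∈ F, 1 ≤ d ∧ Real.log d ≤ η * Real.log x) ∧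
      (∀ d ∈ G, 1 ≤ d ∧ Real.log d ≤ η * Real.log y) ∧ Data ε x F ∧ Data ε y G := by
  obtain ⟨C₀, hC₀, happ⟩ := core
  obtain ⟨M₀, hM₀⟩ := eventually_atTop.1 (((happ ε hε).and (DF_small η hη)).and
    (eventually_ge_atTop 1000))
  have hlim : Tendsto (fun x : ℝ => ll x) atTop atTop :=
    Real.tendsto_log_atTop.comp Real.tendsto_log_atTop
  filter_upwards [hlim.eventually_ge_atTop (((M₀ : ℝ) + 1) ^ 20),
    hlim.eventually_gt_atTop (2 * ll (max Y 3)), eventually_ge_atTop (3 : ℝ)] with x g1 g2 hx3 y hy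
    hxy
  obtain ⟨M, hM0, hMx, hxM⟩ := KA.exists_M x M₀ g1
  obtain ⟨⟨h1, h2⟩, hM1000⟩ := hM₀ M hM0
  have hM1000' : (1000 : ℝ) ≤ M := by exact_mod_cast hM1000
  have hM1 : (1 : ℝ) ≤ M := by linarith only [hM1000']
  have hM1' : (M : ℝ) + 1 ≤ 1001 / 1000 * M := by linarith only [hM1000']
  have h20 : ((M : ℝ) + 1) ^ 20 ≤ 41 / 40 * (M : ℝ) ^ 20 := by
    calc ((M : ℝ) + 1) ^ 20 ≤ (1001 / 1000 * M) ^ 20 := by gcongr
      _ = (1001 / 1000) ^ 20 * (M : ℝ) ^ 20 := by rw [mul_pow]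
      _ ≤ 41 / 40 * (M : ℝ) ^ 20 := by gcongr; norm_num
  have h19 : ((M : ℝ) + 1) ^ 19 ≤ 5 / 4 * (M : ℝ) ^ 19 := by
    calc ((M : ℝ) + 1) ^ 19 ≤ (1001 / 1000 * M) ^ 19 := by gcongr
      _ = (1001 / 1000) ^ 19 * (M : ℝ) ^ 19 := by rw [mul_pow]
      _ ≤ 5 / 4 * (M : ℝ) ^ 19 := by gcongr; norm_num
  have hp19 : 0 < (M : ℝ) ^ 19 := by positivity
  have hp20 : 1000 * (M : ℝ) ^ 19 ≤ (M : ℝ) ^ 20 := by
    rw [pow_succ (M : ℝ) 19]; nlinarith only [hp19, hM1000']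
  have hp15 : (M : ℝ) ^ 15 ≤ (M : ℝ) ^ 19 := pow_le_pow_right₀ hM1 (by norm_num)
  have hp15' : 0 < (M : ℝ) ^ 15 := by positivity
  have hllx0 : 0 < ll x := lt_of_lt_of_le (by positivity) hMx
  have ht : (ll x) ^ ((19 : ℝ) / 20) ≤ 5 / 4 * (M : ℝ) ^ 19 := by
    have h3 : (ll x) ^ ((19 : ℝ) / 20) ≤ (((M : ℝ) + 1) ^ 20) ^ ((19 : ℝ) / 20) :=
      Real.rpow_le_rpow hllx0.le hxM (by norm_num)
    have h4 : (((M : ℝ) + 1) ^ 20) ^ ((19 : ℝ) / 20) = ((M : ℝ) + 1) ^ 19 := by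
      rw [← Real.rpow_natCast, ← Real.rpow_natCast, ← Real.rpow_mul (by positivity)]
      norm_num
    rw [h4] at h3
    exact h3.trans h19
  obtain ⟨hd1, hd2⟩ := abs_le.1 (hxy.trans ht)
  have hTx : |ll x - (M : ℝ) ^ 15 - (ll x - (M : ℝ) ^ 15)| ≤ 1 := by simp
  have hTy : |ll y - (M : ℝ) ^ 15 - (ll y - (M : ℝ) ^ 15)| ≤ 1 := by simp
  have hC1 : 1 ≤ C₀ := by linarith only [hC₀]
  refine ⟨?_, DF M 0 1 (ll x - (M : ℝ) ^ 15 - C₀ * (M : ℝ) ^ 18),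
    DF M 0 1 (ll y - (M : ℝ) ^ 15 - C₀ * (M : ℝ) ^ 18), ?_,
    fun d hd => ⟨KA.mem_DF_pos hd, h2 x _ C₀ d hx3 hC1 hTx hd⟩,
    fun d hd => ⟨KA.mem_DF_pos hd, h2 y _ C₀ d hy hC1 hTy hd⟩,
    h1 x _ hx3 hTx (by linarith only [hMx, hp20, hp15, hp19])
      (by linarith only [hxM, h20, hp15', hp19, hp20]),
    h1 y _ hy hTy (by linarith only [hMx, hp20, hp15, hp19, hd1])
      (by linarith only [hxM, h20, hp15', hp19, hp20, hd2])⟩
  · by_contra hcon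
    have h3 : ll y ≤ ll (max Y 3) :=
      Real.log_le_log (Real.log_pos (by linarith only [hy]))
        (Real.log_le_log (by linarith only [hy]) ((not_le.1 hcon).le.trans (le_max_left _ _)))
    linarith only [h3, g2, hd1, hp20, hMx, hp19]
  · rcases le_total (ll x) (ll y) with h | h
    · exact Or.inl (DF_mono (by linarith only [h]))
    · exact Or.inr (DF_mono (by linarith only [h]))

theorem nested {F G : Finset ℕ} (h : F ⊆ G) {w m : ℕ → ℝ} (h0 : ∀ d ∈ G, 0 ≤ w d ∧ w d ≤ m d) :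
    |∑ d ∈ F, w d - ∑ d ∈ G, w d| ≤ |∑ d ∈ F, m d - ∑ d ∈ G, m d| := by
  rw [← sum_sdiff h, ← sum_sdiff (f := m) h, sub_add_cancel_right, sub_add_cancel_right, abs_neg,
    abs_neg]
  have h1 : 0 ≤ ∑ d ∈ G \ F, w d := sum_nonneg fun d hd => (h0 d (mem_sdiff.1 hd).1).1
  rw [abs_of_nonneg h1]
  exact (sum_le_sum fun d hd => (h0 d (mem_sdiff.1 hd).1).2).trans (le_abs_self _)

theorem alg {θ a a' Z Z' m m' w w' : ℝ} (hθ0 : 0 < θ) (hθ : θ ≤ 1 / 10) (hZ : 0 < Z)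
    (hZ' : 0 < Z') (ha0 : 0 ≤ a') (ha1 : a' ≤ Z') (hm : 0 ≤ m) (hm' : 0 ≤ m')
    (h1 : |a - w| ≤ 2 * θ * Z + θ * m) (h2 : |a' - w'| ≤ 2 * θ * Z' + θ * m')
    (h3 : |Z - m| ≤ θ * Z + θ * m) (h4 : |Z' - m'| ≤ θ * Z' + θ * m')
    (h5 : |Z' - Z| ≤ θ * Z) (h6 : |w - w'| ≤ |m - m'|) : |a' / Z' - a / Z| ≤ 23 * θ := by
  obtain ⟨h1a, h1b⟩ := abs_le.1 h1
  obtain ⟨h2a, h2b⟩ := abs_le.1 h2
  obtain ⟨h3a, h3b⟩ := abs_le.1 h3
  obtain ⟨h4a, h4b⟩ := abs_le.1 h4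
  obtain ⟨h5a, h5b⟩ := abs_le.1 h5
  have b0 : θ * m ≤ 1 / 10 * m := mul_le_mul_of_nonneg_right hθ hm
  have b1 : m ≤ 2 * Z := by nlinarith only [h3a, hθ, hZ, b0]
  have b2 : Z' ≤ 2 * Z := by nlinarith only [h5b, hθ, hZ]
  have b3 : m' ≤ 4 * Z := by nlinarith only [h4a, hθ, hθ0, hZ', hm', b2]
  have c1 : θ * m ≤ θ * (2 * Z) := by gcongr
  have c2 : θ * Z' ≤ θ * (2 * Z) := by gcongr
  have c3 : θ * m' ≤ θ * (4 * Z) := by gcongr
  have d1 : |m - m'| ≤ 10 * (θ * Z) := by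
    rw [abs_le]
    constructor <;> linarith only [h3a, h3b, h4a, h4b, h5a, h5b, c1, c2, c3]
  obtain ⟨h6a, h6b⟩ := abs_le.1 (h6.trans d1)
  have d2 : |a' - a| ≤ 22 * (θ * Z) := by
    rw [abs_le]
    constructor <;> linarith only [h1a, h1b, h2a, h2b, h6a, h6b, c1, c2, c3]
  have e : a' / Z' - a / Z = ((a' - a) - a' / Z' * (Z' - Z)) / Z := by field_simp; ring
  have d3 : |a' / Z' * (Z' - Z)| ≤ θ * Z := by
    rw [abs_mul, abs_of_nonneg (div_nonneg ha0 hZ'.le)]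
    have h7 : a' / Z' ≤ 1 := (div_le_one hZ').2 ha1
    calc a' / Z' * |Z' - Z| ≤ 1 * (θ * Z) := by gcongr
      _ = _ := one_mul _
  rw [e, abs_div, abs_of_pos hZ, div_le_iff₀ hZ]
  refine (abs_sub _ _).trans ?_
  linarith only [d2, d3]

theorem hdiv {z v w θ₁ θ₂ u m : ℝ} (hz : 3 ≤ z)
    (h : |v - z / Real.log z * w| ≤ θ₁ * u + θ₂ * (z / Real.log z * m)) :
    |v * Real.log z / z - w| ≤ θ₁ * (u * Real.log z / z) + θ₂ * m := by
  have hlz : 0 < Real.log z := Real.log_pos (by linarith only [hz])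
  have hz0 : 0 < z := by linarith only [hz]
  have hX : 0 < z / Real.log z := by positivity
  have h1 : v * Real.log z / z - w = (v - z / Real.log z * w) / (z / Real.log z) := by
    field_simp
  rw [h1, abs_div, abs_of_pos hX, div_le_iff₀ hX]
  refine h.trans (le_of_eq ?_)
  field_simp

theorem slow (P q : ℕ) (ε : ℝ) (hq : 1 ≤ q) (hε : 0 < ε) : ∃ δ : ℝ, 0 < δ ∧ ∀ᶠ x : ℝ in atTop,
    ∀ y : ℝ, 3 ≤ y → |ll y - ll x| ≤ δ * (ll x) ^ ((19 : ℝ) / 20) →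
    ∀ (A : Set ℕ) (a k : ℕ) (t : ℝ), Stable P A → 1 ≤ k → 0 ≤ t → t ≤ 1 →
    |(N {n : ℕ | n ∈ A ∧ n ≡ a [MOD q]} k t y : ℝ) / V y -
      (N {n : ℕ | n ∈ A ∧ n ≡ a [MOD q]} k t x : ℝ) / V x| ≤ ε := by
  have : NeZero q := ⟨by omega⟩
  obtain ⟨θ, hθ0, hθ1, hθ2⟩ : ∃ θ : ℝ, 0 < θ ∧ θ ≤ 1 / 10 ∧ 23 * θ ≤ ε :=
    ⟨min (1 / 10) (ε / 23), by positivity, min_le_left _ _, by
      linarith only [min_le_right (1 / 10 : ℝ) (ε / 23)]⟩
  obtain ⟨η₁, hη₁, h1⟩ := app q P θ hθ0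
  obtain ⟨η₂, hη₂, h2⟩ := mass θ hθ0
  obtain ⟨δ, hδ, x₀, h3⟩ := H951.regvar θ hθ0
  obtain ⟨Y, hY⟩ := eventually_atTop.1 (h1.and h2)
  refine ⟨min δ 1, by positivity, ?_⟩
  filter_upwards [win θ (min η₁ η₂) Y hθ0 (by positivity), h1, h2, eventually_ge_atTop x₀,
    eventually_ge_atTop (3 : ℝ)] with x hw h1x h2x hx0 hx3 y hy3 hxy A a k t hA hk ht0 ht1
  have hlx : 0 < Real.log x := Real.log_pos (by linarith only [hx3])
  have hly : 0 < Real.log y := Real.log_pos (by linarith only [hy3])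
  have hll : 0 ≤ ll x := by
    refine Real.log_nonneg ?_
    rw [Real.le_log_iff_exp_le (by linarith only [hx3])]
    linarith only [Real.exp_one_lt_d9, hx3]
  have hpw : 0 ≤ (ll x) ^ ((19 : ℝ) / 20) := by positivity
  obtain ⟨hYy, F, G, hFG, hF, hG, hDF, hDG⟩ := hw y hy3 (hxy.trans (by
    calc min δ 1 * (ll x) ^ ((19 : ℝ) / 20) ≤ 1 * (ll x) ^ ((19 : ℝ) / 20) := by
          gcongr; exact min_le_right _ _
      _ = _ := one_mul _))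
  obtain ⟨h1y, h2y⟩ := hY y hYy
  have r := h3 x y hx0 hy3 (hxy.trans (by gcongr; exact min_le_left _ _))
  have small : ∀ {z : ℝ} {H : Finset ℕ} {η : ℝ}, 0 < Real.log z → min η₁ η₂ ≤ η →
      (∀ d ∈ H, 1 ≤ d ∧ Real.log d ≤ min η₁ η₂ * Real.log z) →
      ∀ d ∈ H, 1 ≤ d ∧ Real.log d ≤ η * Real.log z :=
    fun hz hη h d hd => ⟨(h d hd).1, (h d hd).2.trans (by gcongr)⟩
  have a1 := hdiv hx3 (h1x F (small hlx (min_le_left _ _) hF) hDF A a k t hA hk ht0 ht1)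
  have a2 := hdiv hy3 (h1y G (small hly (min_le_left _ _) hG) hDG A a k t hA hk ht0 ht1)
  have a3 := hdiv hx3 (h2x F (small hlx (min_le_right _ _) hF) hDF)
  have a4 := hdiv hy3 (h2y G (small hly (min_le_right _ _) hG) hDG)
  have a6 : |∑ d ∈ F, wt A (a : ZMod q) k t d - ∑ d ∈ G, wt A (a : ZMod q) k t d| ≤
      |∑ d ∈ F, 1 / (d : ℝ) - ∑ d ∈ G, 1 / (d : ℝ)| := by
    rcases hFG with h | h
    · exact nested h fun d hd => ⟨wt_nonneg _ _ _ _ _, wt_le _ _ _ _ (hG d hd).1⟩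
    · rw [abs_sub_comm, abs_sub_comm (∑ d ∈ F, 1 / (d : ℝ))]
      exact nested h fun d hd => ⟨wt_nonneg _ _ _ _ _, wt_le _ _ _ _ (hF d hd).1⟩
  have hVx : (0 : ℝ) < V x := by exact_mod_cast one_le_V (x := x) (by linarith only [hx3])
  have hVy : (0 : ℝ) < V y := by exact_mod_cast one_le_V (x := y) (by linarith only [hy3])
  have hx0' : 0 < x := by linarith only [hx3]
  have hy0' : 0 < y := by linarith only [hy3]
  have hNy := N_le_V {n : ℕ | n ∈ A ∧ n ≡ a [MOD q]} hk t y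
  have key := alg hθ0 hθ1 (by positivity) (by positivity) (by positivity) (by gcongr)
    (sum_nonneg fun d _ => by positivity) (sum_nonneg fun d _ => by positivity) a1 a2 a3 a4 r a6
  have e : ∀ {z u v : ℝ}, 0 < z → 0 < Real.log z →
      u * Real.log z / z / (v * Real.log z / z) = u / v := by
    intro z u v hz hl
    by_cases hv : v = 0
    · simp [hv]
    · field_simp
  rw [e hx0' hlx, e hy0' hly] at key
  exact key.trans hθ2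

end Vale.Agent.N031X
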