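import Vale.Agent.N031X.Cover

/-! # P031: most values of Euler's function have no large preimage -/

namespace Vale.Agent.N031X

open Filter Topology

theorem tig_ratio {n : ℕ} :
    (n : ℝ) ≤ Nat.totient n * Real.exp (∑ p ∈ n.primeFactors, 1 / ((p - 1 : ℕ) : ℝ)) := by
  have h1 : ((Nat.totient n : ℝ)) * ∏ p ∈ n.primeFactors, (p : ℝ) =
      n * ∏ p ∈ n.primeFactors, ((p - 1 : ℕ) : ℝ) := by
    rw [← Nat.cast_prod, ← Nat.cast_prod, ← Nat.cast_mul, ← Nat.cast_mul,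
      Nat.totient_mul_prod_primeFactors]
  have h0 : ∀ p ∈ n.primeFactors, (0 : ℝ) < ((p - 1 : ℕ) : ℝ) := fun p hp => by
    have := (Nat.prime_of_mem_primeFactors hp).two_le
    exact_mod_cast (by omega : 0 < p - 1)
  have h2 : ∏ p ∈ n.primeFactors, (p : ℝ) ≤ (∏ p ∈ n.primeFactors, ((p - 1 : ℕ) : ℝ)) *
      Real.exp (∑ p ∈ n.primeFactors, 1 / ((p - 1 : ℕ) : ℝ)) := by
    rw [Real.exp_sum, ← Finset.prod_mul_distrib]
    refine Finset.prod_le_prod (fun p _ => Nat.cast_nonneg p) fun p hp => ?_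
    have h3 := h0 p hp
    have h4 : (p : ℝ) = ((p - 1 : ℕ) : ℝ) + 1 := by
      have := (Nat.prime_of_mem_primeFactors hp).two_le
      exact_mod_cast (by omega : p = p - 1 + 1)
    have h5 := Real.add_one_le_exp (1 / ((p - 1 : ℕ) : ℝ))
    calc (p : ℝ) = ((p - 1 : ℕ) : ℝ) * (1 / ((p - 1 : ℕ) : ℝ) + 1) := by
          rw [mul_add, mul_one_div_cancel h3.ne', mul_one, add_comm]
          exact h4
      _ ≤ _ := by gcongr
  have h6 : 0 < ∏ p ∈ n.primeFactors, ((p - 1 : ℕ) : ℝ) := Finset.prod_pos h0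
  refine le_of_mul_le_mul_right ?_ h6
  calc (n : ℝ) * ∏ p ∈ n.primeFactors, ((p - 1 : ℕ) : ℝ)
      = Nat.totient n * ∏ p ∈ n.primeFactors, (p : ℝ) := h1.symm
    _ ≤ Nat.totient n * ((∏ p ∈ n.primeFactors, ((p - 1 : ℕ) : ℝ)) *
      Real.exp (∑ p ∈ n.primeFactors, 1 / ((p - 1 : ℕ) : ℝ))) := by gcongr
    _ = _ := by ring

theorem tig_mem {x : ℝ} {n p : ℕ} (hn : 1 ≤ n) (hp : p ∈ n.primeFactors)
    (hx : (Nat.totient n : ℝ) ≤ x) :
    p - 1 ∈ Finset.Icc 1 ⌊x⌋₊ ∧ Nat.totient n ∈ covD x (p - 1) ∪ covD x (p - 1 + 1) := by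
  have hpp := Nat.prime_of_mem_primeFactors hp
  have h2 := hpp.two_le
  obtain ⟨m, hm⟩ := Nat.dvd_of_mem_primeFactors hp
  have hm0 : 1 ≤ m := Nat.pos_of_ne_zero fun h0 => by
    rw [h0, mul_zero] at hm
    omega
  constructor
  · have h3 := Nat.totient_dvd_of_dvd (⟨m, hm⟩ : p ∣ n)
    rw [Nat.totient_prime hpp] at h3
    exact Finset.mem_Icc.2 ⟨by omega,
      (Nat.le_of_dvd (Nat.totient_pos.2 hn) h3).trans (Nat.le_floor hx)⟩
  · by_cases h3 : p ∣ m
    · refine Finset.mem_union_right _ (mem_covD (by omega) hm0 ?_ hx)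
      rw [hm, Nat.totient_mul_of_prime_of_dvd hpp h3, Nat.sub_add_cancel hpp.one_le]
    · refine Finset.mem_union_left _ (mem_covD (by omega) hm0 ?_ hx)
      rw [hm, Nat.totient_mul_of_prime_of_not_dvd hpp h3]

theorem tight (h : Potter) : Tight := by
  classical
  obtain ⟨C, hC, h⟩ := h
  intro ε hε
  have hs : Summable fun j : ℕ => (j : ℝ) ^ (-(7 / 4 : ℝ)) := Real.summable_nat_rpow.2 (by norm_num)
  set S := ∑' j : ℕ, (j : ℝ) ^ (-(7 / 4 : ℝ)) with hS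
  have hS0 : 0 ≤ S := tsum_nonneg fun j => by positivity
  set L := (2 * C * S + 1) / ε with hL
  have hL0 : 0 < L := by positivity
  refine ⟨Real.exp L, Real.one_le_exp hL0.le, fun x hx => ?_⟩
  set B := (fin_le x fun v => ∃ n : ℕ, 1 ≤ n ∧ Nat.totient n = v ∧
    Real.exp L * (v : ℝ) < n).toFinset with hB
  rw [Set.ncard_eq_toFinset_card _ (fin_le x _), ← hB]
  set D : ℕ → Finset ℕ := fun j => covD x j ∪ covD x (j + 1) with hD
  have hV : (0 : ℝ) ≤ V x := Nat.cast_nonneg _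
  have h1 : ∀ v ∈ B, L ≤ ∑ j ∈ Finset.Icc 1 ⌊x⌋₊, if v ∈ D j then 1 / (j : ℝ) else 0 := by
    intro v hv
    rw [hB, Set.Finite.mem_toFinset] at hv
    obtain ⟨hv, n, hn, rfl, hK⟩ := hv
    have h2 : (0 : ℝ) < Nat.totient n := by exact_mod_cast Nat.totient_pos.2 hn
    have h3 : L ≤ ∑ p ∈ n.primeFactors, 1 / ((p - 1 : ℕ) : ℝ) := by
      have h4 := hK.trans_le (tig_ratio (n := n))
      rw [mul_comm] at h4
      exact (Real.exp_lt_exp.1 (lt_of_mul_lt_mul_left h4 h2.le)).le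
    refine h3.trans ?_
    rw [← Finset.sum_filter, ← Finset.sum_image (s := n.primeFactors) (g := fun p => p - 1)
      (f := fun j : ℕ => 1 / (j : ℝ))]
    · refine Finset.sum_le_sum_of_subset_of_nonneg (fun j hj => ?_) fun j _ _ => by positivity
      obtain ⟨p, hp, rfl⟩ := Finset.mem_image.1 hj
      exact Finset.mem_filter.2 (tig_mem hn hp hv)
    · intro p hp q hq hpq
      have k1 := (Nat.prime_of_mem_primeFactors hp).two_le
      have k2 := (Nat.prime_of_mem_primeFactors hq).two_le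
      have k3 : p - 1 = q - 1 := hpq
      omega
  have h2 : ∀ j ∈ Finset.Icc 1 ⌊x⌋₊, (∑ v ∈ B, if v ∈ D j then 1 / (j : ℝ) else 0) ≤
      2 * C * V x * (j : ℝ) ^ (-(7 / 4 : ℝ)) := by
    intro j hj
    have hj1 : (1 : ℝ) ≤ j := by exact_mod_cast (Finset.mem_Icc.1 hj).1
    have k1 := card_covD hC (h x · hx) (m := j) hj1 le_rfl
    have k2 := card_covD hC (h x · hx) (m := j + 1) hj1 (by push_cast; linarith)
    have k3 : ((B.filter (· ∈ D j)).card : ℝ) ≤ (covD x j).card + (covD x (j + 1)).card := by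
      exact_mod_cast (Finset.card_le_card fun v hv => (Finset.mem_filter.1 hv).2).trans
        (Finset.card_union_le _ _)
    have e : (j : ℝ) ^ (-(7 / 4 : ℝ)) = (j : ℝ) ^ (-(3 / 4 : ℝ)) * (1 / j) := by
      rw [show (-(7 / 4 : ℝ)) = -(3 / 4) + -1 by norm_num, Real.rpow_add (by linarith),
        Real.rpow_neg_one, one_div]
    rw [← Finset.sum_filter, Finset.sum_const, nsmul_eq_mul, e]
    calc ((B.filter (· ∈ D j)).card : ℝ) * (1 / j)
        ≤ (2 * (C * (j : ℝ) ^ (-(3 / 4 : ℝ)) * V x)) * (1 / j) := by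
          gcongr
          linarith
      _ = _ := by ring
  have h3 : (B.card : ℝ) * L ≤ 2 * C * V x * S := by
    calc (B.card : ℝ) * L = ∑ _v ∈ B, L := by rw [Finset.sum_const, nsmul_eq_mul]
      _ ≤ ∑ v ∈ B, ∑ j ∈ Finset.Icc 1 ⌊x⌋₊, if v ∈ D j then 1 / (j : ℝ) else 0 :=
        Finset.sum_le_sum h1
      _ = ∑ j ∈ Finset.Icc 1 ⌊x⌋₊, ∑ v ∈ B, if v ∈ D j then 1 / (j : ℝ) else 0 := Finset.sum_comm
      _ ≤ ∑ j ∈ Finset.Icc 1 ⌊x⌋₊, 2 * C * V x * (j : ℝ) ^ (-(7 / 4 : ℝ)) := Finset.sum_le_sum h2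
      _ ≤ _ := by
        rw [← Finset.mul_sum]
        gcongr
        exact hs.sum_le_tsum _ fun j _ => by positivity
  have h4 : ε * V x * L = (2 * C * S + 1) * V x := by
    rw [hL]
    field_simp
  refine le_of_mul_le_mul_right ?_ hL0
  rw [h4]
  nlinarith

end Vale.Agent.N031X
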